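import Vale.Agent.P254.Loc.Defs
import Vale.Agent.P254.Skew.Gauss

/-!
# Uniform envelopes for normalised states

Everything follows from integration by parts against the inequality
`V x + V' x (y - x) ≤ V y`: moments of `V - min V`, the radius bound `‖y‖ ≤ V y - min V + k + 1`,
and a centred ball inside a sublevel set by separation.
-/

namespace Vale.P254.Loc

open MeasureTheory Skew

variable {k : ℕ} {V : E k → ℝ} {B : E k →L[ℝ] E k →L[ℝ] ℝ} {ε Λ : ℝ}

theorem tangent_le (h : Pinched V ε Λ) (x y : E k) : V x + fderiv ℝ V x (y - x) ≤ V y := by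
  have := taylor_lower (c := 0) (h.hasDerivAt_line x (y - x)) (h.hasDerivAt_line2 x (y - x) (y - x))
    fun t => h.D2_nonneg _ _
  simp only [zero_smul, add_zero, one_smul, add_sub_cancel, zero_div] at this
  exact this

theorem tame_pot (h : Pinched V ε Λ) : Tame V := by
  refine Tame.of_bound h.continuous
    (g := fun x => |V 0| + ‖fderiv ℝ V 0‖ * ‖x‖ + |Λ| * ‖x‖ ^ 2)
    (((Tame.const _).add (tame_id.norm.const_mul _)).add ((tame_id.norm.pow 2).const_mul _))
    fun x => ?_
  have h1 := h.quad_lower x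
  have h2 := h.quad_upper x
  have h3 : |fderiv ℝ V 0 x| ≤ ‖fderiv ℝ V 0‖ * ‖x‖ := (fderiv ℝ V 0).le_opNorm x
  have h4 := abs_le.1 h3
  have h5 : Λ * ‖x‖ ^ 2 ≤ |Λ| * ‖x‖ ^ 2 := mul_le_mul_of_nonneg_right (le_abs_self _) (sq_nonneg _)
  rw [Real.norm_eq_abs, abs_le]
  constructor <;> nlinarith [le_abs_self (V 0), neg_abs_le (V 0), sq_nonneg ‖x‖, h.pos,
    abs_nonneg Λ]

theorem exists_minimiser (h : Pinched V ε Λ) : ∃ x₀, ∀ x, V x₀ ≤ V x := by
  set L := ‖fderiv ℝ V 0‖
  obtain ⟨x₀, -, hx₀⟩ := (isCompact_closedBall (0 : E k) (2 * (L + 1) / ε)).exists_isMinOn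
    ⟨0, Metric.mem_closedBall_self (div_nonneg (by positivity) h.pos.le)⟩
    h.continuous.continuousOn
  refine ⟨x₀, fun x => ?_⟩
  by_cases hx : x ∈ Metric.closedBall (0 : E k) (2 * (L + 1) / ε)
  · exact hx₀ hx
  · have h0 : V x₀ ≤ V 0 :=
      hx₀ (Metric.mem_closedBall_self (div_nonneg (by positivity) h.pos.le))
    rw [Metric.mem_closedBall, dist_zero_right, not_le, div_lt_iff₀ h.pos] at hx
    have h1 := h.quad_lower x
    have h3 := abs_le.1 ((fderiv ℝ V 0).le_opNorm x : |fderiv ℝ V 0 x| ≤ L * ‖x‖)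
    nlinarith [norm_nonneg x, norm_nonneg (fderiv ℝ V 0)]

/-- Integration by parts against a radial field. -/
theorem ibp_radial (h : Pinched V ε Λ) {f : E k → ℝ} (hf : ContDiff ℝ 1 f) (hft : Tame f)
    (hfd : ∀ w, Tame fun x => fderiv ℝ f x w) (y : E k) :
    ex V (fun x => f x * fderiv ℝ V x (x - y)) =
      ex V (fun x => fderiv ℝ f x (x - y)) + k * ex V f := by
  let e : Fin k → E k := fun i => EuclideanSpace.single i 1
  have hdec : ∀ z : E k, z = ∑ i, z i • e i := fun z => by
    ext j; simp [e, Pi.single_apply]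
  have hci : ∀ i, Tame fun x : E k => (x - y) i := fun i =>
    (tame_id.sub (Tame.const y)).clm (EuclideanSpace.proj i : E k →L[ℝ] ℝ)
  have hl : ∀ (l : E k →L[ℝ] ℝ) (x : E k), l (x - y) = ∑ i, (x - y) i * l (e i) := fun l x => by
    conv_lhs => rw [hdec (x - y)]
    simp [map_sum]
  have key : ∀ i, ex V (fun x => f x * (x - y) i * fderiv ℝ V x (e i)) =
      ex V (fun x => (x - y) i * fderiv ℝ f x (e i)) + ex V f := by
    intro i
    have hd : ∀ x : E k,
        HasFDerivAt (fun x : E k => (x - y) i) (EuclideanSpace.proj i : E k →L[ℝ] ℝ) x := fun x =>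
      ((EuclideanSpace.proj i : E k →L[ℝ] ℝ).hasFDerivAt.comp x ((hasFDerivAt_id x).sub_const y))
        |>.congr_fderiv (by ext; simp)
    have hc : ContDiff ℝ 1 fun x : E k => (x - y) i :=
      (EuclideanSpace.proj i : E k →L[ℝ] ℝ).contDiff.comp (contDiff_id.sub contDiff_const)
    have he : ∀ x, fderiv ℝ (fun x => f x * (x - y) i) x (e i) =
        f x + (x - y) i * fderiv ℝ f x (e i) := fun x => by
      rw [((hf.differentiable one_ne_zero x).hasFDerivAt.fun_mul (hd x)).fderiv]
      simp [e]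
    have ht : Tame fun x => fderiv ℝ (fun x => f x * (x - y) i) x (e i) := by
      rw [funext he]; exact hft.add ((hci i).mul (hfd _))
    rw [h.ibp (hf.mul hc) (hft.mul (hci i)) (e i) ht, funext he,
      h.ex_add hft ((hci i).mul (hfd _)), add_comm]
  have e1 : ∀ x, f x * fderiv ℝ V x (x - y) = ∑ i, f x * (x - y) i * fderiv ℝ V x (e i) :=
    fun x => by rw [hl, Finset.mul_sum]; simp [mul_assoc]
  have e2 : ∀ x, fderiv ℝ f x (x - y) = ∑ i, (x - y) i * fderiv ℝ f x (e i) := fun x => hl _ x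
  rw [funext e1, funext e2,
    h.ex_sum _ fun i _ => (hft.mul (hci i)).mul (h.tame_fderiv_apply _),
    h.ex_sum _ fun i _ => (hci i).mul (hfd _), Finset.sum_congr rfl fun i _ => key i,
    Finset.sum_add_distrib, Finset.sum_const, Finset.card_univ, Fintype.card_fin, nsmul_eq_mul]

theorem tame_radial (h : Pinched V ε Λ) (y : E k) : Tame fun x => fderiv ℝ V x (x - y) :=
  h.tame_fderiv.bilin (ContinuousLinearMap.id ℝ (E k →L[ℝ] ℝ)) (tame_id.sub (Tame.const y))

/-- The moments of `V - min V`. -/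
theorem moments (h : Pinched V ε Λ) {x₀ : E k} (h₀ : ∀ x, V x₀ ≤ V x) :
    ex V (fun x => V x - V x₀) ≤ k ∧ ex V (fun x => (V x - V x₀) ^ 2) ≤ k + k ^ 2 ∧
      ex V (fun x => (V x - V x₀) ^ 3) ≤ (2 + k) * (k + k ^ 2) := by
  set u : E k → ℝ := fun x => V x - V x₀ with hu
  set F : E k → ℝ := fun x => fderiv ℝ V x (x - x₀) with hF
  have hu0 : ∀ x, 0 ≤ u x := fun x => sub_nonneg.2 (h₀ x)
  have huF : ∀ x, u x ≤ F x := fun x => by
    have := tangent_le h x x₀
    rw [← neg_sub x x₀, map_neg] at this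
    simp only [hu, hF]; linarith
  have tu : Tame u := (tame_pot h).sub (Tame.const _)
  have tF : Tame F := tame_radial h x₀
  have cu : ContDiff ℝ 1 u := (h.smooth.sub contDiff_const).of_le (by norm_num)
  have du : ∀ x, HasFDerivAt u (fderiv ℝ V x) x := fun x =>
    (h.differentiable x).hasFDerivAt.sub_const _
  have b0 : ex V F = k := by
    have := ibp_radial h (f := fun _ => (1 : ℝ)) contDiff_const (Tame.const _)
      (fun w => by simpa using Tame.const (0 : ℝ)) x₀
    simpa [h.ex_const, hF] using this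
  have b1 : ex V (fun x => u x * F x) = k + k * ex V u := by
    rw [ibp_radial h cu tu (fun w => by simpa [(du _).fderiv] using h.tame_fderiv_apply w) x₀, ← b0]
    simp only [(du _).fderiv, hF]
  have du2 : ∀ x, HasFDerivAt (fun x => u x ^ 2) ((2 * u x) • fderiv ℝ V x) x := fun x => by
    refine ((du x).fun_mul (du x)).congr_of_eventuallyEq
      (Filter.Eventually.of_forall fun z => pow_two (u z)) |>.congr_fderiv ?_
    rw [two_mul, add_smul]
  have b2 : ex V (fun x => u x ^ 2 * F x) =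
      2 * ex V (fun x => u x * F x) + k * ex V (fun x => u x ^ 2) := by
    have hfd : ∀ x, fderiv ℝ (fun x => u x ^ 2) x (x - x₀) = 2 * (u x * F x) := fun x => by
      simp [(du2 x).fderiv, hF, mul_assoc]
    rw [ibp_radial h (cu.pow 2) (tu.pow 2) (fun w => ?_) x₀, funext hfd, ex_const_mul]
    · simp only [(du2 _).fderiv]
      simpa [mul_assoc] using (tu.mul (h.tame_fderiv_apply w)).const_mul 2
  have m1 : ex V u ≤ k := (h.ex_mono tu tF huF).trans_eq b0
  have m2 : ex V (fun x => u x ^ 2) ≤ k + k ^ 2 := by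
    refine (h.ex_mono (tu.pow 2) (tu.mul tF) fun x => ?_).trans ?_
    · rw [pow_two]; exact mul_le_mul_of_nonneg_left (huF x) (hu0 x)
    · rw [b1]; nlinarith
  refine ⟨m1, m2, (h.ex_mono (tu.pow 3) ((tu.pow 2).mul tF) fun x => ?_).trans ?_⟩
  · rw [show u x ^ 3 = u x ^ 2 * u x by ring]
    exact mul_le_mul_of_nonneg_left (huF x) (sq_nonneg _)
  · rw [b2, b1]; nlinarith [(Nat.cast_nonneg k : (0 : ℝ) ≤ k)]

/-- The radius bound. -/
theorem norm_le_excess (hV : Hyp V B ε Λ) {x₀ : E k} (h₀ : ∀ x, V x₀ ≤ V x) (y : E k) :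
    ‖y‖ ≤ V y - V x₀ + k + 1 := by
  have h := hV.pin
  set T := V y - V x₀ + k + 1 with hT
  have hk : (0 : ℝ) ≤ k := Nat.cast_nonneg k
  have hT1 : 1 ≤ T := by have := h₀ y; rw [hT]; linarith
  by_cases hy : y = 0
  · simp [hy]; linarith
  have hny : 0 < ‖y‖ := norm_pos_iff.2 hy
  set θ := ‖y‖⁻¹ • y with hθ
  have nθ : ‖θ‖ = 1 := by rw [hθ, norm_smul, norm_inv, norm_norm]; field_simp
  have yθ : inner ℝ y θ = ‖y‖ := by
    rw [hθ, real_inner_smul_right, real_inner_self_eq_norm_sq]; field_simp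
  set s := -(‖y‖ / T) with hs
  let g : E k → ℝ := fun x => (inner ℝ x θ - s) ^ 2
  have cX : ContDiff ℝ 1 fun x : E k => inner ℝ x θ := contDiff_id.inner ℝ contDiff_const
  have cg : ContDiff ℝ 1 g := (cX.sub contDiff_const).pow 2
  have tX : Tame fun x : E k => inner ℝ x θ - s := (tame_inner θ).sub (Tame.const _)
  have dg : ∀ x w, fderiv ℝ g x w = 2 * (inner ℝ x θ - s) * inner ℝ w θ := fun x w => by
    have h1 : HasFDerivAt (fun x : E k => inner ℝ x θ - s) ((innerSL ℝ).flip θ) x :=
      ((innerSL ℝ).flip θ).hasFDerivAt.sub_const _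
    have h2 : HasFDerivAt g ((2 * (inner ℝ x θ - s)) • (innerSL ℝ).flip θ) x := by
      refine (h1.fun_mul h1).congr_of_eventuallyEq
        (Filter.Eventually.of_forall fun z => pow_two _) |>.congr_fderiv ?_
      rw [two_mul, add_smul]
    rw [h2.fderiv]; simp [real_inner_comm θ w]
    exact Or.inl rfl
  have tg : Tame g := tX.pow 2
  have tdg : ∀ w, Tame fun x => fderiv ℝ g x w := fun w => by
    simpa only [dg, mul_comm] using (tX.const_mul 2).mul (Tame.const (inner ℝ w θ))
  have eX : ex V (fun x => inner ℝ x θ) = 0 := hV.mean θ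
  have eX2 : ex V (fun x => inner ℝ x θ * inner ℝ x θ) = 1 := by
    rw [hV.cov, real_inner_self_eq_norm_sq, nθ]; norm_num
  have e2 : ex V g = 1 + s ^ 2 := by
    have e : ∀ x, g x = inner ℝ x θ * inner ℝ x θ + ((-2 * s) * inner ℝ x θ + s ^ 2) := fun x => by
      simp only [g]; ring
    rw [funext e, h.ex_add ((tame_inner θ).mul (tame_inner θ))
      (((tame_inner θ).const_mul _).add (Tame.const _)),
      h.ex_add ((tame_inner θ).const_mul _) (Tame.const _), ex_const_mul, h.ex_const, eX, eX2]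
    ring
  have e1 : ex V (fun x => fderiv ℝ g x (x - y)) = 2 * (1 + s * ‖y‖) := by
    have e : ∀ x, fderiv ℝ g x (x - y) =
        2 * (inner ℝ x θ * inner ℝ x θ + ((-(s + ‖y‖)) * inner ℝ x θ + s * ‖y‖)) := fun x => by
      rw [dg, inner_sub_left, yθ]; ring
    rw [funext e, ex_const_mul, h.ex_add ((tame_inner θ).mul (tame_inner θ))
      (((tame_inner θ).const_mul _).add (Tame.const _)),
      h.ex_add ((tame_inner θ).const_mul _) (Tame.const _), ex_const_mul, h.ex_const, eX, eX2]
    ring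
  have main := h.ex_mono (f := fun x => g x * V x₀ - g x * fderiv ℝ V x (x - y))
    (g := fun x => g x * V y) ((tg.mul (Tame.const _)).sub (tg.mul (tame_radial h y)))
    (tg.mul (Tame.const _)) fun x => by
      have h1 := tangent_le h x y
      rw [← neg_sub x y, map_neg] at h1
      rw [← mul_sub]
      exact mul_le_mul_of_nonneg_left (by linarith [h₀ x]) (sq_nonneg _)
  rw [h.ex_sub (tg.mul (Tame.const _)) (tg.mul (tame_radial h y)), ex_mul_const, ex_mul_const,
    ibp_radial h cg tg tdg y, e1, e2] at main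
  have hsT : s * T = -‖y‖ := by rw [hs]; field_simp
  by_contra hlt
  rw [not_le] at hlt
  have hmain : 0 ≤ (1 + s ^ 2) * (T - 1) + 2 * (1 + s * ‖y‖) := by rw [hT]; nlinarith
  have heq : ((1 + s ^ 2) * (T - 1) + 2 * (1 + s * ‖y‖)) * T ^ 2 =
      (T + 1) * (T ^ 2 - ‖y‖ ^ 2) := by
    rw [hs]; field_simp; ring
  have hneg : (T + 1) * (T ^ 2 - ‖y‖ ^ 2) < 0 :=
    mul_neg_of_pos_of_neg (by linarith) (sub_neg.2 (pow_lt_pow_left₀ hlt (by linarith) two_ne_zero))
  nlinarith [mul_nonneg hmain (sq_nonneg T)]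

theorem direction (hV : Hyp V B ε Λ) {x₀ : E k} (h₀ : ∀ x, V x₀ ≤ V x) {θ : E k}
    (nθ : ‖θ‖ = 1) {D M2 T r : ℝ}
    (hD : D = 2 * ((2 + k) * (k + k ^ 2) + 3 * (k + 1) * (k + k ^ 2) + 3 * (k + 1) ^ 2 * k
      + (k + 1) ^ 3))
    (hM2 : M2 = (k + 1) * k + (k + k ^ 2)) (hT : T = 16 * D * M2 + 1) (hr : r = 1 / (16 * D)) :
    ∃ y, V y ≤ V x₀ + T ∧ r ≤ inner ℝ y θ := by
  have h := hV.pin
  have hk : (0 : ℝ) ≤ k := Nat.cast_nonneg k
  obtain ⟨m1, m2, m3⟩ := moments h h₀
  have tu : Tame fun x => V x - V x₀ := (tame_pot h).sub (Tame.const _)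
  have hD0 : 0 < D := by rw [hD]; positivity
  have hM0 : 0 ≤ M2 := by rw [hM2]; positivity
  have hT0 : 0 < T := by rw [hT]; positivity
  have hr0 : 0 < r := by rw [hr]; positivity
  by_contra hcon
  push Not at hcon
  have tX := tame_inner θ
  have tA : Tame fun x => |inner ℝ x θ| := by simpa using tX.norm
  have hX : ∀ x, |inner ℝ x θ| ≤ V x - V x₀ + k + 1 := fun x => by
    have := abs_real_inner_le_norm x θ
    rw [nθ, mul_one] at this
    exact this.trans (norm_le_excess hV h₀ x)
  have e3 : ex V (fun x => |inner ℝ x θ| ^ 3) ≤ D / 2 := by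
    refine (h.ex_mono (tA.pow 3) (((tu.pow 3).add ((tu.pow 2).const_mul (3 * (k + 1 : ℝ)))).add
      ((tu.const_mul (3 * (k + 1 : ℝ) ^ 2)).add (Tame.const ((k + 1 : ℝ) ^ 3)))) fun x => ?_).trans ?_
    · refine (pow_le_pow_left₀ (abs_nonneg _) (hX x) 3).trans_eq ?_
      ring
    · rw [h.ex_add ((tu.pow 3).add ((tu.pow 2).const_mul _))
          ((tu.const_mul _).add (Tame.const _)),
        h.ex_add (tu.pow 3) ((tu.pow 2).const_mul _), h.ex_add (tu.const_mul _) (Tame.const _),
        ex_const_mul, ex_const_mul, h.ex_const, hD]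
      nlinarith [mul_le_mul_of_nonneg_left m2 (by positivity : (0 : ℝ) ≤ 3 * (k + 1)),
        mul_le_mul_of_nonneg_left m1 (by positivity : (0 : ℝ) ≤ 3 * (k + 1) ^ 2)]
  have e1 : ex V (fun x => inner ℝ x θ * inner ℝ x θ) ≤
      D * ex V (fun x => |inner ℝ x θ|) + D⁻¹ * ex V (fun x => |inner ℝ x θ| ^ 3) := by
    rw [← ex_const_mul, ← ex_const_mul, ← h.ex_add (tA.const_mul _) ((tA.pow 3).const_mul _)]
    refine h.ex_mono (tX.mul tX) ((tA.const_mul _).add ((tA.pow 3).const_mul _)) fun x => ?_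
    rw [← abs_mul_abs_self (inner ℝ x θ)]
    set a := |inner ℝ x θ| with ha
    have ha0 : 0 ≤ a := abs_nonneg _
    rcases le_total a D with hle | hle
    · nlinarith [mul_le_mul_of_nonneg_left hle ha0,
        (by positivity : 0 ≤ D⁻¹ * a ^ 3)]
    · have : a * a ≤ D⁻¹ * a ^ 3 := by
        rw [inv_mul_eq_div, le_div_iff₀ hD0]
        nlinarith [mul_le_mul_of_nonneg_left hle (mul_nonneg ha0 ha0)]
      nlinarith [mul_nonneg hD0.le ha0]
  rw [hV.cov, real_inner_self_eq_norm_sq, nθ] at e1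
  have e2 : ex V (fun x => |inner ℝ x θ|) ≤ 2 * (r + T⁻¹ * M2) := by
    have hpt : ∀ x, |inner ℝ x θ| ≤ 2 * (r + T⁻¹ * ((k + 1) * (V x - V x₀) + (V x - V x₀) ^ 2))
        - inner ℝ x θ := fun x => by
      have hu := sub_nonneg.2 (h₀ x)
      have hpos : 0 ≤ T⁻¹ * ((k + 1) * (V x - V x₀) + (V x - V x₀) ^ 2) := by positivity
      rcases le_total (inner ℝ x θ) 0 with hneg | hnn
      · rw [abs_of_nonpos hneg]; linarith
      · rw [abs_of_nonneg hnn]
        by_cases hle : V x ≤ V x₀ + T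
        · linarith [hcon x hle]
        · have h2 : (V x - V x₀ + k + 1) * T ≤
              (k + 1) * (V x - V x₀) + (V x - V x₀) ^ 2 := by
            nlinarith [mul_le_mul_of_nonneg_left (le_of_lt (lt_sub_iff_add_lt'.2 (not_le.1 hle)))
              (by positivity : (0 : ℝ) ≤ V x - V x₀ + k + 1)]
          rw [← le_div_iff₀ hT0, ← inv_mul_eq_div] at h2
          have h4 := le_abs_self (inner ℝ x θ)
          linarith [hX x]
    refine (h.ex_mono tA (((Tame.const r).add (((tu.const_mul _).add (tu.pow 2)).const_mul _)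
      |>.const_mul 2).sub tX) hpt).trans ?_
    rw [h.ex_sub (((Tame.const r).add (((tu.const_mul _).add (tu.pow 2)).const_mul _)).const_mul 2)
        tX, ex_const_mul, h.ex_add (Tame.const r) (((tu.const_mul _).add (tu.pow 2)).const_mul _),
      ex_const_mul, h.ex_add (tu.const_mul _) (tu.pow 2), ex_const_mul, h.ex_const, hV.mean, hM2,
      sub_zero]
    gcongr
  have h6 : D⁻¹ * ex V (fun x => |inner ℝ x θ| ^ 3) ≤ 1 / 2 := by
    rw [inv_mul_eq_div, div_le_iff₀ hD0]; linarith
  have h7 : T⁻¹ * M2 < r := by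
    rw [hr, inv_mul_eq_div, div_lt_div_iff₀ hT0 (by positivity), hT]; linarith
  have h8 : D * r = 1 / 16 := by rw [hr]; field_simp
  nlinarith [mul_le_mul_of_nonneg_left e2 hD0.le, mul_lt_mul_of_pos_left h7 hD0]

theorem ball_sublevel (h : Pinched V ε Λ) {x₀ : E k} {T r : ℝ} (hT0 : 0 ≤ T)
    (dir : ∀ θ : E k, ‖θ‖ = 1 → ∃ y, V y ≤ V x₀ + T ∧ r ≤ inner ℝ y θ) :
    ∀ x, ‖x‖ ≤ r → V x ≤ V x₀ + T := by
  have hconv : ConvexOn ℝ Set.univ V := by
    refine ⟨convex_univ, fun x _ y _ a b ha hb hab => ?_⟩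
    set z := a • x + b • y
    have hx := tangent_le h z x
    have hy := tangent_le h z y
    have e : a * fderiv ℝ V z (x - z) + b * fderiv ℝ V z (y - z) = 0 := by
      rw [← smul_eq_mul, ← map_smul, ← smul_eq_mul, ← map_smul, ← map_add,
        show a • (x - z) + b • (y - z) = (a • x + b • y) - (a + b) • z by module, hab, one_smul,
        sub_self, map_zero]
    rw [smul_eq_mul, smul_eq_mul]
    have e' : (a + b) * V z = V z := by rw [hab, one_mul]
    nlinarith [mul_le_mul_of_nonneg_left hx ha, mul_le_mul_of_nonneg_left hy hb]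
  intro x hx
  by_contra hxL
  have hs1 : Convex ℝ {x | V x ≤ V x₀ + T} := by simpa using hconv.convex_le (V x₀ + T)
  obtain ⟨f, u, hfu, hux⟩ := geometric_hahn_banach_closed_point hs1
    (isClosed_le h.continuous continuous_const) (x := x) hxL
  set w := (InnerProductSpace.toDual ℝ (E k)).symm f with hw
  have hwv : ∀ v, f v = inner ℝ v w := fun v => by
    rw [real_inner_comm, hw, InnerProductSpace.toDual_symm_apply]
  have hw0 : w ≠ 0 := fun h0 => by
    have := hfu x₀ (le_add_of_nonneg_right hT0)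
    rw [hwv, h0, inner_zero_right] at this hux
    linarith
  have hnw : 0 < ‖w‖ := norm_pos_iff.2 hw0
  obtain ⟨y, hy, hyr⟩ := dir (‖w‖⁻¹ • w) (by rw [norm_smul, norm_inv, norm_norm]; field_simp)
  rw [real_inner_smul_right, inv_mul_eq_div, le_div_iff₀ hnw] at hyr
  have h9 := (hfu y hy).trans hux
  rw [hwv, hwv] at h9
  nlinarith [real_inner_le_norm x w, mul_le_mul_of_nonneg_right hx hnw.le]

/-- Uniform envelopes. -/
theorem envelope : EnvelopeStmt := by
  intro k
  have hk : (0 : ℝ) ≤ k := Nat.cast_nonneg k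
  set D : ℝ := 2 * ((2 + k) * (k + k ^ 2) + 3 * (k + 1) * (k + k ^ 2) + 3 * (k + 1) ^ 2 * k
    + (k + 1) ^ 3) with hD
  set M2 : ℝ := (k + 1) * k + (k + k ^ 2) with hM2
  have hD0 : 0 < D := by rw [hD]; positivity
  have hM0 : 0 ≤ M2 := by rw [hM2]; positivity
  set T : ℝ := 16 * D * M2 + 1 with hT
  have hT0 : 0 < T := by rw [hT]; positivity
  set r : ℝ := 1 / (16 * D) with hr
  have hr0 : 0 < r := by rw [hr]; positivity
  set A : ℝ := 2 * k + 1 with hA
  set R2 := volume.real (Metric.closedBall (0 : E k) A) with hR2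
  set R1 := volume.real (Metric.closedBall (0 : E k) r) with hR1
  have hR1p : 0 < R1 := ENNReal.toReal_pos (Metric.measure_closedBall_pos volume _ hr0).ne'
    measure_closedBall_lt_top.ne
  have hR2p : 0 < R2 := ENNReal.toReal_pos
    (Metric.measure_closedBall_pos volume _ (by positivity)).ne' measure_closedBall_lt_top.ne
  refine ⟨Real.exp (T + k + 1) / R1, 1, r, Real.exp (-T) / (2 * R2), by positivity, one_pos, hr0,
    by positivity, fun V B ε Λ hV => ?_⟩
  have h := hV.pin
  obtain ⟨x₀, h₀⟩ := exists_minimiser h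
  have hex : ∀ f : E k → ℝ, ex V f = ∫ x, Real.exp (-V x) * f x := fun f => by
    simp [ex, hV.mass]
  have dir : ∀ θ : E k, ‖θ‖ = 1 → ∃ y, V y ≤ V x₀ + T ∧ r ≤ inner ℝ y θ := fun θ nθ =>
    direction hV h₀ nθ hD hM2 hT hr
  have ball := ball_sublevel h hT0.le dir
  have upper : Real.exp (-V x₀) ≤ Real.exp T / R1 := by
    rw [le_div_iff₀ hR1p]
    have h1 : Real.exp (-(V x₀ + T)) * R1 ≤ ∫ x, Real.exp (-V x) := by
      calc Real.exp (-(V x₀ + T)) * R1
          = ∫ x, (Metric.closedBall (0 : E k) r).indicator (fun _ => Real.exp (-(V x₀ + T))) x := by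
            rw [integral_indicator_const _ measurableSet_closedBall, smul_eq_mul, mul_comm]
        _ ≤ _ := integral_mono
            ((integrable_indicator_iff measurableSet_closedBall).2
              (integrableOn_const measure_closedBall_lt_top.ne)) h.integrable_exp fun x => by
              by_cases hx : x ∈ Metric.closedBall (0 : E k) r
              · rw [Set.indicator_of_mem hx]
                exact Real.exp_le_exp.2 (neg_le_neg (ball x (by simpa using hx)))
              · rw [Set.indicator_of_notMem hx]; exact (Real.exp_pos _).le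
    rw [show (∫ x, Real.exp (-V x)) = 1 from hV.mass, neg_add, Real.exp_add, Real.exp_neg T,
      mul_assoc, mul_comm _ R1, ← mul_assoc, ← div_eq_mul_inv, div_le_one (Real.exp_pos T)] at h1
    exact h1
  have lower : 1 / (2 * R2) ≤ Real.exp (-V x₀) := by
    have hn : ex V (fun x => ‖x‖ ^ 2) = k := by
      have : ∀ x : E k, ‖x‖ ^ 2 = ∑ i, inner ℝ x (EuclideanSpace.single i (1 : ℝ)) *
          inner ℝ x (EuclideanSpace.single i (1 : ℝ)) := fun x => by
        rw [EuclideanSpace.norm_sq_eq]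
        simp [EuclideanSpace.inner_single_right, pow_two]
      rw [funext this, h.ex_sum _ fun i _ => (tame_inner _).mul (tame_inner _)]
      simp [hV.cov]
    have h1 : ex V (fun x => 1 - (A ^ 2)⁻¹ * ‖x‖ ^ 2) ≤ Real.exp (-V x₀) * R2 := by
      rw [hex]
      calc ∫ x, Real.exp (-V x) * (1 - (A ^ 2)⁻¹ * ‖x‖ ^ 2)
          ≤ ∫ x, (Metric.closedBall (0 : E k) A).indicator (fun _ => Real.exp (-V x₀)) x := by
            refine integral_mono
              (h.integrable ((Tame.const 1).sub ((tame_id.norm.pow 2).const_mul _)))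
              ((integrable_indicator_iff measurableSet_closedBall).2
                (integrableOn_const measure_closedBall_lt_top.ne)) fun x => ?_
            by_cases hx : x ∈ Metric.closedBall (0 : E k) A
            · rw [Set.indicator_of_mem hx]
              refine (mul_le_of_le_one_right (Real.exp_pos _).le (sub_le_self _ (by positivity))).trans
                (Real.exp_le_exp.2 (neg_le_neg (h₀ x)))
            · rw [Set.indicator_of_notMem hx]
              refine mul_nonpos_of_nonneg_of_nonpos (Real.exp_pos _).le (sub_nonpos.2 ?_)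
              rw [inv_mul_eq_div, one_le_div (by positivity)]
              simp only [Metric.mem_closedBall, dist_zero_right, not_le] at hx
              exact pow_le_pow_left₀ (by positivity) hx.le 2
        _ = _ := by rw [integral_indicator_const _ measurableSet_closedBall, smul_eq_mul, mul_comm]
    rw [h.ex_sub (Tame.const 1) ((tame_id.norm.pow 2).const_mul _), ex_const_mul, h.ex_const,
      hn] at h1
    rw [div_le_iff₀ (by positivity)]
    have h2 : (A ^ 2)⁻¹ * k ≤ 1 / 2 := by
      rw [inv_mul_eq_div, div_le_iff₀ (by positivity), hA]; nlinarith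
    linarith
  refine ⟨fun x => ?_, fun x hx => ?_⟩
  · rw [div_one]
    calc Real.exp (-V x) ≤ Real.exp (-V x₀) * (Real.exp (k + 1) * Real.exp (-‖x‖)) := by
          rw [← Real.exp_add, ← Real.exp_add]
          exact Real.exp_le_exp.2 (by linarith [norm_le_excess hV h₀ x])
      _ ≤ Real.exp T / R1 * (Real.exp (k + 1) * Real.exp (-‖x‖)) :=
          mul_le_mul_of_nonneg_right upper (by positivity)
      _ = _ := by rw [add_assoc T, Real.exp_add T]; ring
  · calc Real.exp (-T) / (2 * R2) = Real.exp (-T) * (1 / (2 * R2)) := by ring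
      _ ≤ Real.exp (-T) * Real.exp (-V x₀) := mul_le_mul_of_nonneg_left lower (Real.exp_pos _).le
      _ ≤ _ := by
          rw [← Real.exp_add]
          exact Real.exp_le_exp.2 (by linarith [ball x hx])

end Vale.P254.Loc
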