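import Vale.Agent.P254.Loc.Defs

/-!
# The minimum principle and the bound `L_K ≤ √(e/(2π))`
-/

namespace Vale.P254.Loc

open MeasureTheory Skew Filter Topology

variable {k : ℕ}

lemma hyp_zero {V : E k → ℝ} {B : E k →L[ℝ] E k →L[ℝ] ℝ} {ε Λ : ℝ} (hV : Hyp V B ε Λ) :
    Hyp V 0 ε Λ :=
  ⟨hV.pin, fun _ _ => rfl, fun _ => le_rfl,
    fun x w => le_trans (by simpa using mul_nonneg hV.pin.pos.le (sq_nonneg ‖w‖))
      (hV.pin.lower x w), hV.mass, hV.mean, hV.cov⟩

lemma trB_zero : trB (0 : E k →L[ℝ] E k →L[ℝ] ℝ) = 0 := by simp [trB]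

lemma trB_le (hS : SkewStmt) {V : E k → ℝ} {B : E k →L[ℝ] E k →L[ℝ] ℝ} {ε Λ : ℝ}
    (hV : Hyp V B ε Λ) : 0 ≤ (k : ℝ) - trB B := by
  have h := hS k V B ε Λ hV
  have h0 : 0 ≤ ∑ i, ∑ j, ∑ l, third V i j l ^ 2 :=
    Finset.sum_nonneg fun i _ => Finset.sum_nonneg fun j _ => Finset.sum_nonneg fun l _ => sq_nonneg _
  linarith

lemma childB_symm {B : E k →L[ℝ] E k →L[ℝ] ℝ} (hB : ∀ v w, B v w = B w v) (j : Fin k) (a : ℝ)
    (v w : E k) : childB B j a v w = childB B j a w v := by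
  simp [childB, hB v w, mul_comm]

lemma childB_nonneg {B : E k →L[ℝ] E k →L[ℝ] ℝ} (hB : ∀ w, 0 ≤ B w w) (j : Fin k) (a : ℝ)
    (w : E k) : 0 ≤ childB B j a w w := by
  have h1 := hB w
  have h2 : 0 ≤ a ^ 2 * (w j * w j) := mul_nonneg (sq_nonneg a) (mul_self_nonneg _)
  simp [childB]
  nlinarith

/-- The Hessian of a child. -/
lemma D2_childV {V : E k → ℝ} (hV : ContDiff ℝ 2 V) (j : Fin k) (a : ℝ) (x w : E k) :
    D2 (childV V j a) x w w = D2 V x w w + a ^ 2 * w j ^ 2 := by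
  set π : E k →L[ℝ] ℝ := EuclideanSpace.proj j with hπ
  have hd : Differentiable ℝ V := hV.differentiable (by simp)
  have h1 : ∀ y, HasFDerivAt (childV V j a) (fderiv ℝ V y - a • π + (a ^ 2 * π y) • π) y := by
    intro y
    have hq : HasFDerivAt (fun z => a ^ 2 * π z ^ 2 / 2) ((a ^ 2 * π y) • π) y := by
      have h := ((π.hasFDerivAt (x := y)).pow 2).const_mul (a ^ 2 / 2)
      refine (h.congr_of_eventuallyEq (Filter.Eventually.of_forall fun z => by simp only; ring)).congr_fderiv ?_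
      ext z
      simp
      ring
    exact (((hd y).hasFDerivAt.sub (π.hasFDerivAt.const_mul a)).add hq)
  have h2 : HasFDerivAt (fderiv ℝ (childV V j a))
      (fderiv ℝ (fderiv ℝ V) x + (a ^ 2 • π).smulRight π) x := by
    have he : fderiv ℝ (childV V j a) = fun y => fderiv ℝ V y - a • π + (a ^ 2 • π) y • π :=
      funext fun y => by simp [(h1 y).fderiv]
    rw [he]
    exact (((hV.fderiv_right (m := 1) (by norm_num)).differentiable (by simp)).differentiableAt.hasFDerivAt.sub_const _).add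
      ((a ^ 2 • π).hasFDerivAt.smul_const π)
  simp [D2, h2.fderiv, π]
  ring

lemma childV_pinched {V : E k → ℝ} {ε Λ : ℝ} (hV : Pinched V ε Λ) (j : Fin k) (a : ℝ) :
    Pinched (childV V j a) ε (Λ + a ^ 2) := by
  refine ⟨?_, hV.pos, fun x w => ?_, fun x w => ?_⟩
  · have hp : ContDiff ℝ 2 (fun x : E k => x j) :=
      (EuclideanSpace.proj (𝕜 := ℝ) j : E k →L[ℝ] ℝ).contDiff
    exact (hV.smooth.sub (contDiff_const.mul hp)).add ((contDiff_const.mul (hp.pow 2)).div_const 2)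
  · rw [D2_childV hV.smooth]
    nlinarith [hV.lower x w, mul_nonneg (sq_nonneg a) (sq_nonneg (w j))]
  · rw [D2_childV hV.smooth]
    have h2 : w j ^ 2 ≤ ‖w‖ ^ 2 := by
      have h3 := PiLp.norm_apply_le w j
      rw [Real.norm_eq_abs] at h3
      nlinarith [abs_nonneg (w j), sq_abs (w j)]
    nlinarith [hV.upper x w, mul_le_mul_of_nonneg_left h2 (sq_nonneg a)]

lemma childB_le {V : E k → ℝ} {B : E k →L[ℝ] E k →L[ℝ] ℝ} (hV : ContDiff ℝ 2 V)
    (hB : ∀ x w, B w w ≤ D2 V x w w) (j : Fin k) (a : ℝ) (x w : E k) :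
    childB B j a w w ≤ D2 (childV V j a) x w w := by
  rw [D2_childV hV]
  have := hB x w
  simp [childB]
  nlinarith

/-- The minimum principle. -/
theorem entropy_normalised (hS : SkewStmt) (hE : EnvelopeStmt) (hN : NormaliseStmt)
    (hT : StepStmt) (hTer : TerminalStmt) (V : E k → ℝ) (B : E k →L[ℝ] E k →L[ℝ] ℝ) (ε Λ : ℝ)
    (hV : Hyp V B ε Λ) (η : ℝ) (hη : 0 < η) (hη1 : η ≤ 1) :
    gaussEnt k ≤ val η V B := by
  set S : Set ℝ := {r | ∃ (V : E k → ℝ) (B : E k →L[ℝ] E k →L[ℝ] ℝ) (ε Λ : ℝ),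
    Hyp V B ε Λ ∧ r = val η V B} with hSdef
  have hne : S.Nonempty := ⟨_, V, B, ε, Λ, hV, rfl⟩
  obtain ⟨C, R, r, c, hC, hR, -, -, henv⟩ := hE k
  have hbdd : BddBelow S := by
    refine ⟨min (-Real.log C) 0, ?_⟩
    rintro _ ⟨W, B', ε', Λ', hW, rfl⟩
    have hlow : ∀ x, -Real.log C ≤ W x := fun x => by
      have h1 := (henv W B' ε' Λ' hW).1 x
      have h2 : Real.exp (-W x) ≤ C := h1.trans (mul_le_of_le_one_right hC.le
        (Real.exp_le_one_iff.2 (by simpa using div_nonneg (norm_nonneg x) hR.le)))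
      have := (Real.le_log_iff_exp_le hC).2 h2
      linarith
    have hent : min (-Real.log C) 0 ≤ ent W := by
      rw [ent, hW.mass, Real.log_one, add_zero, ex, hW.mass, inv_one, one_smul]
      by_cases hi : Integrable fun x => Real.exp (-W x) • W x
      · have hp : Integrable fun x => Real.exp (-W x) := by
          by_contra h
          have h1 := hW.mass
          rw [Zc, integral_undef h] at h1
          exact zero_ne_one h1
        refine le_trans (min_le_left _ _) ?_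
        calc -Real.log C = ∫ x, Real.exp (-W x) * (-Real.log C) := by
              have h1 := hW.mass
              rw [Zc] at h1
              rw [integral_mul_const, h1, one_mul]
          _ ≤ _ := integral_mono (hp.mul_const _) hi fun x =>
              mul_le_mul_of_nonneg_left (hlow x) (Real.exp_nonneg _)
      · rw [integral_undef hi]
        exact min_le_right _ _
    have := mul_nonneg (by linarith : (0:ℝ) ≤ 1 + η) (trB_le hS hW)
    unfold val
    linarith
  set m := sInf S with hm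
  refine le_trans ?_ (csInf_le hbdd ⟨V, B, ε, Λ, hV, rfl⟩)
  by_contra hlt
  push Not at hlt
  set δ := (gaussEnt k - m) / 2 with hδdef
  have hδ : 0 < δ := by rw [hδdef]; linarith
  obtain ⟨σ, hσ, hterm⟩ := hTer k δ hδ
  obtain ⟨Cs, a₀, hCs, ha₀, hstep⟩ := hT k
  set a := min a₀ (η * σ / (2 * Cs)) with hadef
  have ha : 0 < a := lt_min ha₀ (by positivity)
  set ζ := min δ (a ^ 2 * η * σ / (2 * ((k : ℝ) + 1))) with hζdef
  have hζ : 0 < ζ := lt_min hδ (by positivity)
  obtain ⟨-, ⟨W, B', ε', Λ', hW, rfl⟩, hclose⟩ := exists_lt_of_csInf_lt hne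
    (lt_add_of_pos_right m hζ)
  have hgap0 := trB_le hS hW
  have hkids : ∀ j s, m ≤ Phi η (childV W j s) (childB B' j s) := by
    intro j s
    obtain ⟨V', B'', ε'', Λ'', hV', hval⟩ := hN k _ _ _ _ (childV_pinched hW.pin j s)
      (childB_symm hW.Bsymm j s) (childB_nonneg hW.Bnonneg j s) (childB_le hW.pin.smooth hW.Ble j s)
    rw [← hval η]
    exact csInf_le hbdd ⟨V', B'', ε'', Λ'', hV', rfl⟩
  have hst := hstep W B' ε' Λ' η a hW hη.le hη1 ha (min_le_left _ _)
  have hlow : (k : ℝ) * m ≤ ∑ j, (Phi η (childV W j a) (childB B' j a)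
      + Phi η (childV W j (-a)) (childB B' j (-a))) / 2 := by
    calc (k : ℝ) * m = ∑ _j : Fin k, m := by simp
      _ ≤ _ := Finset.sum_le_sum fun j _ => by linarith [hkids j a, hkids j (-a)]
  have hsk := hS k W B' ε' Λ' hW
  have hmul : a ^ 2 * ((∑ i, ∑ j, ∑ l, third W i j l ^ 2) / 4 - (1 + η) * ((k : ℝ) - trB B'))
      ≤ a ^ 2 * (-(η * ((k : ℝ) - trB B'))) :=
    mul_le_mul_of_nonneg_left (by linarith) (sq_nonneg a)
  have hk : (k : ℝ) * val η W B' ≤ (k : ℝ) * m + (k : ℝ) * ζ := by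
    rw [← mul_add]
    exact mul_le_mul_of_nonneg_left hclose.le (Nat.cast_nonneg k)
  have h1 : (k : ℝ) * ζ ≤ a ^ 2 * η * σ / 2 := by
    have h := min_le_right δ (a ^ 2 * η * σ / (2 * ((k : ℝ) + 1)))
    rw [← hζdef, le_div_iff₀ (by positivity)] at h
    nlinarith
  have h2 : Cs * a ^ 3 ≤ a ^ 2 * η * σ / 2 := by
    have h := min_le_right a₀ (η * σ / (2 * Cs))
    rw [← hadef, le_div_iff₀ (by positivity)] at h
    nlinarith [mul_le_mul_of_nonneg_left h (sq_nonneg a)]
  have hgap : (k : ℝ) - trB B' ≤ σ := by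
    have h3 : a ^ 2 * η * ((k : ℝ) - trB B') ≤ a ^ 2 * η * σ := by nlinarith
    exact le_of_mul_le_mul_left h3 (by positivity)
  have hfin := hterm W B' ε' Λ' hW hgap0 hgap
  have := mul_nonneg (by linarith : (0:ℝ) ≤ 1 + η) hgap0
  have hζδ := min_le_left δ (a ^ 2 * η * σ / (2 * ((k : ℝ) + 1)))
  rw [← hζdef] at hζδ
  unfold val at hclose
  linarith

theorem entropy_stmt (hS : SkewStmt) (hE : EnvelopeStmt) (hN : NormaliseStmt)
    (hT : StepStmt) (hTer : TerminalStmt) : EntropyStmt := by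
  intro k W ε Λ hW
  obtain ⟨V, B', ε', Λ', hV, hval⟩ := hN k W 0 ε Λ hW (fun _ _ => rfl) (fun _ => le_rfl)
    (fun x w => le_trans (by simpa using mul_nonneg hW.pos.le (sq_nonneg ‖w‖)) (hW.lower x w))
  refine le_of_forall_pos_le_add fun θ hθ => ?_
  set η := min 1 (θ / ((k : ℝ) + 1)) with hη
  have hη0 : 0 < η := lt_min one_pos (by positivity)
  have h := entropy_normalised hS hE hN hT hTer V B' ε' Λ' hV η hη0 (min_le_left _ _)
  rw [hval η] at h
  have hf : formMat (0 : E k →L[ℝ] E k →L[ℝ] ℝ) = 0 := by ext i j; simp [formMat]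
  rw [Phi, hf, Matrix.mul_zero, Matrix.trace_zero] at h
  have hle : η * k ≤ θ := by
    have h' := min_le_right 1 (θ / ((k : ℝ) + 1))
    rw [← hη, le_div_iff₀ (by positivity)] at h'
    nlinarith
  linarith

theorem isoConst_le (hEnt : EntropyStmt) (hB : BodyStmt) {k : ℕ} (hk : 1 ≤ k)
    {K : Set (Fin k → ℝ)} (hc : IsCompact K) (hK : Convex ℝ K) (hi : (interior K).Nonempty) :
    isoConst K ≤ Real.sqrt (Real.exp 1 / (2 * Real.pi)) := by
  obtain ⟨hd, hv, W, ε, Λ, hW, hent, hdet⟩ := hB k hk K hc hK hi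
  have hlim : gaussEnt k - k + (1 / 2) * Real.log (covMat K).det ≤ Real.log (volume.real K) :=
    le_of_tendsto_of_tendsto' (tendsto_const_nhds.add
      (((Real.continuousAt_log hd.ne').tendsto.comp hdet).const_mul _)) hent
      fun n => hEnt k (W n) (ε n) (Λ n) (hW n)
  have hk0 : (0 : ℝ) < k := by exact_mod_cast hk
  have hr : 0 < Real.exp 1 / (2 * Real.pi) := by positivity
  rw [isoConst, Real.sqrt_eq_rpow, Real.rpow_def_of_pos (by positivity), Real.rpow_def_of_pos hr]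
  refine Real.exp_le_exp.2 ?_
  rw [Real.log_div hd.ne' (by positivity), Real.log_pow, Real.log_div (by positivity) (by positivity),
    Real.log_exp]
  rw [gaussEnt] at hlim
  field_simp
  push_cast
  nlinarith

end Vale.P254.Loc
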