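import Vale.Agent.P254.Loc.Defs
import Vale.Agent.P254.Skew.Gauss

/-!
# Affine normalisation of a state
-/

namespace Vale.P254.Loc

open MeasureTheory Skew
open scoped RealInnerProductSpace Matrix MatrixOrder

variable {k : ℕ} {W : E k → ℝ} {a b : ℝ}

lemma tame_coord (i : Fin k) : Tame fun x : E k => x i :=
  tame_id.clm (EuclideanSpace.proj (𝕜 := ℝ) i)

lemma cov_quad (h : Pinched W a b) (u u' : Fin k → ℝ) :
    ex W (fun x => (∑ i, u i * (x i - mu W i)) * ∑ i, u' i * (x i - mu W i))
      = ∑ i, ∑ j, u i * u' j * cov W i j := by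
  have hc : ∀ i, Tame fun x : E k => x i - mu W i := fun i => (tame_coord i).sub (Tame.const _)
  have e : ∀ x : E k, (∑ i, u i * (x i - mu W i)) * ∑ i, u' i * (x i - mu W i)
      = ∑ i, ∑ j, u i * u' j * ((x i - mu W i) * (x j - mu W j)) := fun x => by
    rw [Finset.sum_mul_sum]
    exact Finset.sum_congr rfl fun i _ => Finset.sum_congr rfl fun j _ => by ring
  rw [ex_congr e, h.ex_sum _ fun i _ => Tame.sum _ fun j _ => ((hc i).mul (hc j)).const_mul _]
  refine Finset.sum_congr rfl fun i _ => ?_
  rw [h.ex_sum _ fun j _ => ((hc i).mul (hc j)).const_mul _]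
  exact Finset.sum_congr rfl fun j _ => ex_const_mul _ _

lemma cov_symm (W : E k → ℝ) (i j : Fin k) : cov W i j = cov W j i := by
  simp only [cov, Matrix.of_apply]
  exact ex_congr fun x => mul_comm _ _

lemma pinched_mono (h : Pinched W a b) {b' : ℝ} (hb : b ≤ b') : Pinched W a b' :=
  ⟨h.smooth, h.pos, h.lower,
    fun x w => (h.upper x w).trans (mul_le_mul_of_nonneg_right hb (sq_nonneg _))⟩

lemma cov_posDef (h : Pinched W a b) : (cov W).PosDef := by
  refine Matrix.PosDef.of_dotProduct_mulVec_pos (Matrix.IsHermitian.ext fun i j => by simp [cov_symm W i j]) ?_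
  intro u hu
  set w : E k := WithLp.toLp 2 u with hw
  have hm : ∀ x : E k, ⟪x, w⟫ = ∑ i, u i * x i := fun x => by
    simp [PiLp.inner_apply, hw]
  have hmu : ex W (fun x => ⟪x, w⟫) = ∑ i, u i * mu W i := by
    rw [ex_congr hm, h.ex_sum _ fun i _ => (tame_coord i).const_mul _]
    exact Finset.sum_congr rfl fun i _ => ex_const_mul _ _
  have hb := pinched_mono h (le_max_left b 1)
  have key := hb.le_var (lt_max_of_lt_right one_pos) w
  have hpos : 0 < ‖w‖ ^ 2 / max b 1 := by
    have : w ≠ 0 := fun h0 => hu (by simpa [hw] using h0)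
    positivity
  have hq : star u ⬝ᵥ cov W *ᵥ u = ∑ i, ∑ j, u i * u j * cov W i j := by
    simp only [dotProduct, Matrix.mulVec, Pi.star_apply, star_trivial, Finset.mul_sum]
    exact Finset.sum_congr rfl fun i _ => Finset.sum_congr rfl fun j _ => by ring
  set m := ex W fun x => ⟪x, w⟫ with hmdef
  have e : ∀ x : E k, (∑ i, u i * (x i - mu W i)) * (∑ i, u i * (x i - mu W i))
      = ⟪x, w⟫ ^ 2 + (-2 * m) * ⟪x, w⟫ + m ^ 2 := fun x => by
    rw [show ∑ i, u i * (x i - mu W i) = ⟪x, w⟫ - m by
      rw [hm, hmu, ← Finset.sum_sub_distrib]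
      simp only [mul_sub]]
    ring
  rw [hq, ← cov_quad h, ex_congr e, h.ex_add (((tame_inner w).pow 2).add ((tame_inner w).const_mul _))
    (Tame.const _), h.ex_add ((tame_inner w).pow 2) ((tame_inner w).const_mul _), ex_const_mul,
    h.ex_const, ← hmdef]
  nlinarith

lemma integral_comp_affine (M : Matrix (Fin k) (Fin k) ℝ) (hM : M.det ≠ 0) (z : E k)
    (g : E k → ℝ) :
    ∫ y, g (z + Matrix.toEuclideanLin M y) = |M.det|⁻¹ * ∫ x, g x := by
  have hd : LinearMap.det (Matrix.toEuclideanLin M) = M.det := by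
    rw [Matrix.toEuclideanLin_eq_toLin, LinearMap.det_toLin]
  have hd0 : LinearMap.det (Matrix.toEuclideanLin M) ≠ 0 := by rwa [hd]
  have hinj : Function.Injective (Matrix.toEuclideanLin M) :=
    LinearMap.ker_eq_bot.1 ((LinearMap.equivOfDetNeZero _ hd0).ker)
  have hemb : MeasurableEmbedding (Matrix.toEuclideanLin M) :=
    (LinearMap.continuous_of_finiteDimensional _).measurableEmbedding hinj
  have h := hemb.integral_map (μ := volume) fun x => g (z + x)
  rw [Measure.map_linearMap_addHaar_eq_smul_addHaar volume hd0, integral_smul_measure,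
    ENNReal.toReal_ofReal (abs_nonneg _), hd, smul_eq_mul, abs_inv,
    integral_add_left_eq_self g z] at h
  exact h.symm

lemma ex_comp_affine (M : Matrix (Fin k) (Fin k) ℝ) (hM : M.det ≠ 0) (z : E k) (c : ℝ)
    (W g : E k → ℝ) :
    Zc (fun y => W (z + Matrix.toEuclideanLin M y) + c) = Real.exp (-c) * |M.det|⁻¹ * Zc W ∧
    ex (fun y => W (z + Matrix.toEuclideanLin M y) + c)
      (fun y => g (z + Matrix.toEuclideanLin M y)) = ex W g := by
  have h1 : ∀ f : E k → ℝ, ∫ y, Real.exp (-(W (z + Matrix.toEuclideanLin M y) + c))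
      * f (z + Matrix.toEuclideanLin M y)
      = Real.exp (-c) * |M.det|⁻¹ * ∫ x, Real.exp (-W x) * f x := fun f => by
    rw [mul_assoc, ← integral_comp_affine M hM z fun x => Real.exp (-W x) * f x,
      ← integral_const_mul]
    congr 1
    ext y
    rw [neg_add, Real.exp_add]
    ring
  have hZ : Zc (fun y => W (z + Matrix.toEuclideanLin M y) + c)
      = Real.exp (-c) * |M.det|⁻¹ * Zc W := by
    simpa [Zc] using h1 fun _ => 1
  refine ⟨hZ, ?_⟩
  simp only [ex, smul_eq_mul]
  rw [hZ, h1 g, mul_inv, mul_mul_mul_comm, inv_mul_cancel₀, one_mul]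
  have := abs_pos.2 hM
  positivity

theorem normalise : NormaliseStmt := by
  intro k W B ε Λ hW hBs hBn hBle
  have hA := cov_posDef hW
  obtain ⟨N, hN⟩ := CStarAlgebra.nonneg_iff_eq_star_mul_self.mp hA.posSemidef.nonneg
  set M : Matrix (Fin k) (Fin k) ℝ := Nᵀ with hMdef
  have hMA : cov W = M * Mᵀ := by
    rw [hN, hMdef, Matrix.transpose_transpose, Matrix.star_eq_conjTranspose,
      Matrix.conjTranspose_eq_transpose_of_trivial]
  clear_value M
  clear hMdef
  have hdetA : (cov W).det = M.det ^ 2 := by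
    rw [hMA, Matrix.det_mul, Matrix.det_transpose, sq]
  have hM : M.det ≠ 0 := fun h0 => by
    have := hA.det_pos
    rw [hdetA, h0] at this
    simp at this
  set T : E k →L[ℝ] E k := (Matrix.toEuclideanLin M).toContinuousLinearMap with hT
  set T' : E k →L[ℝ] E k := (Matrix.toEuclideanLin M⁻¹).toContinuousLinearMap with hT'
  have hTT : ∀ y, T' (T y) = y := fun y => by
    simp [hT, hT', Matrix.toLpLin_apply,
      Matrix.nonsing_inv_mul M (isUnit_iff_ne_zero.2 hM)]
  have hTi : ∀ y i, T y i = ∑ j, M i j * y j := fun y i => by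
    simp [hT, Matrix.toLpLin_apply, Matrix.mulVec, dotProduct]
  set z : E k := WithLp.toLp 2 (mu W) with hz
  set c := Real.log (Zc W) - Real.log |M.det| with hc
  set V : E k → ℝ := fun y => W (z + T y) + c with hVdef
  have hVeq : V = fun y => W (z + Matrix.toEuclideanLin M y) + c := rfl
  have hD : ∀ y v w, D2 V y v w = D2 W (z + T y) (T v) (T w) := by
    intro y v w
    have h1 : ∀ y', HasFDerivAt V ((fderiv ℝ W (z + T y')).comp T) y' := fun y' =>
      ((hW.differentiable _).hasFDerivAt.comp y' (T.hasFDerivAt.const_add z)).add_const c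
    have h2 : HasFDerivAt (fun y' => fderiv ℝ W (z + T y'))
        ((fderiv ℝ (fderiv ℝ W) (z + T y)).comp T) y :=
      ((hW.contDiff_fderiv.differentiable one_ne_zero) _).hasFDerivAt.comp y
        (T.hasFDerivAt.const_add z)
    rw [D2, funext fun y' => (h1 y').fderiv,
      (h2.clm_comp (hasFDerivAt_const T y)).fderiv]
    simp [D2]
  have hpin : Pinched V (ε / (‖T'‖ ^ 2 + 1)) (|Λ| * ‖T‖ ^ 2) := by
    refine ⟨(hW.smooth.comp ((contDiff_const (c := z)).add T.contDiff)).add contDiff_const,
      div_pos hW.pos (by positivity), fun x w => ?_, fun x w => ?_⟩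
    · rw [hD]
      refine le_trans ?_ (hW.lower _ _)
      rw [div_mul_eq_mul_div, div_le_iff₀ (by positivity), mul_assoc]
      refine mul_le_mul_of_nonneg_left ?_ hW.pos.le
      have h1 : ‖w‖ ≤ ‖T'‖ * ‖T w‖ := by simpa [hTT] using T'.le_opNorm (T w)
      have h2 := pow_le_pow_left₀ (norm_nonneg _) h1 2
      nlinarith [sq_nonneg ‖T w‖]
    · rw [hD]
      refine (hW.upper _ _).trans ((mul_le_mul_of_nonneg_right (le_abs_self Λ)
        (sq_nonneg _)).trans ?_)
      rw [mul_assoc, ← mul_pow]
      exact mul_le_mul_of_nonneg_left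
        (pow_le_pow_left₀ (norm_nonneg _) (T.le_opNorm w) 2) (abs_nonneg _)
  set B' : E k →L[ℝ] E k →L[ℝ] ℝ := B.bilinearComp T T with hB'
  have hmass : Zc V = 1 := by
    rw [hVeq, (ex_comp_affine M hM z c W fun _ => 0).1, hc, neg_sub, Real.exp_sub,
      Real.exp_log (abs_pos.2 hM), Real.exp_log hW.zc_pos]
    have := hW.zc_pos
    have := abs_pos.2 hM
    field_simp
  set u : E k → Fin k → ℝ := fun w => M⁻¹ᵀ *ᵥ w.ofLp with hu
  have hlin : ∀ y w : E k, ⟪y, w⟫ = ∑ i, u w i * ((z + T y) i - mu W i) := fun y w => by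
    simp only [PiLp.add_apply, hz, add_sub_cancel_left]
    rw [PiLp.inner_apply]
    simp only [RCLike.inner_apply, conj_trivial]
    change w.ofLp ⬝ᵥ y.ofLp = u w ⬝ᵥ (T y).ofLp
    simp only [hu]
    rw [Matrix.mulVec_transpose, ← Matrix.dotProduct_mulVec]
    congr 1
    exact (congrArg WithLp.ofLp (hTT y)).symm
  have hexV : ∀ g : E k → ℝ, ex V (fun y => g (z + T y)) = ex W g := fun g =>
    (ex_comp_affine M hM z c W g).2
  refine ⟨V, B', _, _, ⟨hpin, fun v w => ?_, fun w => ?_, fun x w => ?_, hmass, fun w => ?_,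
    fun v w => ?_⟩, fun η => ?_⟩
  · exact hBs _ _
  · exact hBn _
  · rw [hD]
    exact hBle _ _
  · rw [ex_congr fun y => hlin y w, hexV fun x => ∑ i, u w i * (x i - mu W i),
      hW.ex_sum _ fun i _ => ((tame_coord i).sub (Tame.const _)).const_mul _]
    refine Finset.sum_eq_zero fun i _ => ?_
    rw [ex_const_mul, hW.ex_sub (tame_coord i) (Tame.const _), hW.ex_const, mu, sub_self, mul_zero]
  · rw [ex_congr (fun y => congr_arg₂ (· * ·) (hlin y v) (hlin y w)),
      hexV fun x => (∑ i, u v i * (x i - mu W i)) * ∑ i, u w i * (x i - mu W i), cov_quad hW,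
      real_inner_comm, PiLp.inner_apply]
    simp only [RCLike.inner_apply, conj_trivial]
    have e : (∑ i, ∑ j, u v i * u w j * cov W i j) = (u v ᵥ* M) ⬝ᵥ (u w ᵥ* M) := by
      rw [← Matrix.mulVec_transpose M (u w), Matrix.dotProduct_mulVec, Matrix.vecMul_vecMul,
        ← hMA, ← Matrix.dotProduct_mulVec]
      simp only [dotProduct, Matrix.mulVec, Finset.mul_sum]
      exact Finset.sum_congr rfl fun i _ => Finset.sum_congr rfl fun j _ => by ring
    rw [e]
    simp only [hu, Matrix.mulVec_transpose, Matrix.vecMul_vecMul,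
      Matrix.nonsing_inv_mul M (isUnit_iff_ne_zero.2 hM), Matrix.vecMul_one]
    rfl
  · have hent : ent V = ent W - Real.log |M.det| := by
      rw [ent, ent, hmass, Real.log_one, add_zero]
      rw [show V = fun y => (fun x => W x + c) (z + T y) from rfl] 
      rw [show ex (fun y => (fun x => W x + c) (z + T y)) (fun y => (fun x => W x + c) (z + T y))
        = ex W fun x => W x + c from hexV fun x => W x + c]
      have hte : Tame W := ⟨hW.continuous, by
        obtain ⟨C, n, hCn⟩ := (((Tame.const (|W 0|)).add ((tame_id.norm).const_mul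
          ‖fderiv ℝ W 0‖)).add ((tame_id.norm.pow 2).const_mul (|Λ| / 2))).2
        refine ⟨C, n, fun x => le_trans ?_ ((Real.le_norm_self _).trans (hCn x))⟩
        have h1 := hW.quad_lower x
        have h2 := hW.quad_upper x
        have h3 := abs_le.1 ((fderiv ℝ W 0).le_opNorm x)
        have h4 := abs_le.1 (le_refl |W 0|)
        have h5 := mul_le_mul_of_nonneg_right (le_abs_self Λ) (sq_nonneg ‖x‖)
        have h6 := mul_nonneg hW.pos.le (sq_nonneg ‖x‖)
        have h7 := mul_nonneg (abs_nonneg Λ) (sq_nonneg ‖x‖)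
        rw [Real.norm_eq_abs, abs_le]
        constructor <;> linarith⟩
      rw [hW.ex_add hte (Tame.const _), hW.ex_const, hc]
      ring
    have hdet : (1 / 2) * Real.log (cov W).det = Real.log |M.det| := by
      rw [hdetA, ← sq_abs, Real.log_pow]
      push_cast
      ring
    have htr : trB B' = (cov W * formMat B).trace := by
      have hTe : ∀ i, T (EuclideanSpace.single i 1) = ∑ a, M a i • EuclideanSpace.single a (1:ℝ) :=
        fun i => PiLp.ext fun j => by
          simp [hTi, Pi.single_apply]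
      simp only [trB, hB', ContinuousLinearMap.bilinearComp_apply, hTe, map_sum, map_smul,
        ContinuousLinearMap.sum_apply, ContinuousLinearMap.smul_apply, smul_eq_mul, hMA,
        Matrix.trace, Matrix.diag, Matrix.mul_apply, formMat, Matrix.of_apply,
        Matrix.transpose_apply, Finset.sum_mul, Finset.mul_sum]
      rw [Finset.sum_comm]
      refine Finset.sum_congr rfl fun a _ => ?_
      rw [Finset.sum_comm]
      refine Finset.sum_congr rfl fun b _ => Finset.sum_congr rfl fun i _ => ?_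
      ring
    rw [val, Phi, htr, hent, hdet]

end Vale.P254.Loc
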