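import Vale.Agent.P254.Loc.Main
import Vale.Agent.P254.Loc.Normalise

/-!
# The second order expansion along the children
-/

namespace Vale.P254.Loc

open MeasureTheory Skew
open scoped RealInnerProductSpace Matrix

variable {k : ℕ} {W : E k → ℝ} {a b : ℝ}

lemma tame_pot (h : Pinched W a b) : Tame W := by
  refine ⟨h.continuous, ?_⟩
  obtain ⟨C, n, hCn⟩ := (((Tame.const (k := k) (|W 0|)).add ((tame_id.norm).const_mul
    ‖fderiv ℝ W 0‖)).add ((tame_id.norm.pow 2).const_mul (|b| / 2))).2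
  refine ⟨C, n, fun x => le_trans ?_ ((Real.le_norm_self _).trans (hCn x))⟩
  have h1 := h.quad_lower x
  have h2 := h.quad_upper x
  have h3 := abs_le.1 ((fderiv ℝ W 0).le_opNorm x)
  have h4 := abs_le.1 (le_refl |W 0|)
  have h5 := mul_le_mul_of_nonneg_right (le_abs_self b) (sq_nonneg ‖x‖)
  have h6 := mul_nonneg h.pos.le (sq_nonneg ‖x‖)
  have h7 := mul_nonneg (abs_nonneg b) (sq_nonneg ‖x‖)
  rw [Real.norm_eq_abs, abs_le]
  constructor <;> linarith

/-- The remainder of `exp (t - t ^ 2 / 2)`. -/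
noncomputable def rem (t : ℝ) : ℝ := Real.exp (t - t ^ 2 / 2) - 1 - t

lemma rem_le (t : ℝ) : |rem t| ≤ 28 * |t| ^ 3 := by
  rcases le_or_gt |t| (1 / 2) with ht | ht
  · set u := t - t ^ 2 / 2 with hu
    have h2 : t ^ 2 = |t| ^ 2 := (sq_abs t).symm
    have hua : |u| ≤ 2 * |t| := by
      refine (abs_sub _ _).trans ?_
      rw [abs_div, abs_pow, abs_two]
      nlinarith [abs_nonneg t]
    have hb := Real.exp_bound (x := u) (hua.trans (by linarith)) (n := 3) (by norm_num)
    norm_num [Finset.sum_range_succ, Nat.factorial] at hb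
    have h3 : |u| ^ 3 ≤ 8 * |t| ^ 3 := by
      calc |u| ^ 3 ≤ (2 * |t|) ^ 3 := pow_le_pow_left₀ (abs_nonneg u) hua 3
        _ = _ := by ring
    have e : rem t = (Real.exp u - (1 + u + u ^ 2 / 2)) + (-t ^ 3 / 2 + t ^ 4 / 8) := by
      rw [rem, hu]; ring
    have h4 : |t| ^ 4 ≤ |t| ^ 3 := pow_le_pow_of_le_one (abs_nonneg t) (by linarith) (by norm_num)
    rw [e]
    refine (abs_add_le _ _).trans ?_
    refine (add_le_add hb (abs_add_le _ _)).trans ?_
    rw [abs_div, abs_div, abs_neg, abs_pow, abs_pow]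
    norm_num
    nlinarith [pow_nonneg (abs_nonneg t) 3]
  · have h1 : Real.exp (t - t ^ 2 / 2) ≤ 2 := by
      refine (Real.exp_le_exp.2 (show t - t ^ 2 / 2 ≤ 1 / 2 by nlinarith [sq_nonneg (t - 1)])).trans ?_
      nlinarith [Real.exp_add (1 / 2 : ℝ) (1 / 2), Real.exp_one_lt_d9, Real.exp_pos (1 / 2 : ℝ),
        show (1 / 2 : ℝ) + 1 / 2 = 1 by norm_num]
    have h2 : |rem t| ≤ 3 + |t| := by
      rw [rem, abs_le]
      have := Real.exp_pos (t - t ^ 2 / 2)
      constructor <;> linarith [le_abs_self t, neg_abs_le t]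
    nlinarith [pow_le_pow_left₀ (by norm_num) ht.le 2, abs_nonneg t]

lemma integrable_poly_exp (n : ℕ) {c : ℝ} (hc : 0 < c) :
    Integrable fun x : E k => (1 + ‖x‖) ^ n * Real.exp (-(c * ‖x‖)) := by
  set m := n + (k + 1)
  have hb : ∀ x : E k, (1 + ‖x‖) ^ m * Real.exp (-(c * ‖x‖))
      ≤ m.factorial * Real.exp c / c ^ m := fun x => by
    have h := Real.pow_div_factorial_le_exp (c * (1 + ‖x‖)) (by positivity) m
    rw [div_le_iff₀ (by positivity), mul_pow] at h
    rw [le_div_iff₀ (by positivity)]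
    calc (1 + ‖x‖) ^ m * Real.exp (-(c * ‖x‖)) * c ^ m
        ≤ Real.exp (c * (1 + ‖x‖)) * m.factorial * Real.exp (-(c * ‖x‖)) := by
          rw [mul_right_comm, mul_comm _ (c ^ m)]
          exact mul_le_mul_of_nonneg_right h (Real.exp_nonneg _)
      _ = _ := by
          rw [mul_right_comm, ← Real.exp_add, mul_comm]
          ring_nf
  have hi := (integrable_one_add_norm (μ := (volume : Measure (E k))) (r := ((k + 1 : ℕ) : ℝ))
    (by simp)).const_mul (m.factorial * Real.exp c / c ^ m)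
  refine hi.mono' (by fun_prop) (Filter.Eventually.of_forall fun x => ?_)
  rw [Real.norm_of_nonneg (by positivity), Real.rpow_neg (by positivity), Real.rpow_natCast,
    ← div_eq_mul_inv, le_div_iff₀ (by positivity)]
  refine le_trans (le_of_eq ?_) (hb x)
  ring

/-- A common integrable majorant. -/
theorem exists_weight (hE : EnvelopeStmt) (k : ℕ) :
    ∃ w : E k → ℝ, Integrable w ∧ (∀ x, 0 ≤ w x) ∧
      ∀ (V : E k → ℝ) (B : E k →L[ℝ] E k →L[ℝ] ℝ) (ε Λ : ℝ), Hyp V B ε Λ →
        (∀ x, Real.exp (-V x) * (1 + ‖x‖) ^ 5 ≤ w x) ∧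
        ∀ x, Real.exp (-V x) * |V x| * (1 + ‖x‖) ^ 5 ≤ w x := by
  obtain ⟨C, R, r, c, hC, hR, -, -, henv⟩ := hE k
  refine ⟨fun x => (3 * C + |Real.log C| * C) * ((1 + ‖x‖) ^ 5
    * Real.exp (-((2 * R)⁻¹ * ‖x‖))), (integrable_poly_exp 5 (by positivity)).const_mul _,
    fun x => by positivity, fun V B ε Λ hV => ?_⟩
  have main : ∀ x, Real.exp (-V x) ≤ C * Real.exp (-((2 * R)⁻¹ * ‖x‖)) ∧
      Real.exp (-V x) * |V x| ≤ (2 * C + |Real.log C| * C) * Real.exp (-((2 * R)⁻¹ * ‖x‖)) := by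
    intro x
    have h1 := (henv V B ε Λ hV).1 x
    set e := Real.exp (-((2 * R)⁻¹ * ‖x‖)) with he
    have hee : Real.exp (-(‖x‖ / R)) = e * e := by
      rw [he, ← Real.exp_add]
      congr 1
      field_simp
      ring
    have he1 : e ≤ 1 := Real.exp_le_one_iff.2 (by have := hR; simp; positivity)
    have he0 : 0 < e := Real.exp_pos _
    rw [hee] at h1
    have hpC : Real.exp (-V x) ≤ C * e := h1.trans (by nlinarith [mul_pos hC he0])
    refine ⟨hpC, ?_⟩
    set t := V x + Real.log C with ht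
    have hp : Real.exp (-V x) = C * Real.exp (-t) := by
      rw [ht, neg_add, Real.exp_add, Real.exp_neg (Real.log C), Real.exp_log hC]
      field_simp
    have ht0 : 0 ≤ t := by
      have h4 : Real.exp (-t) ≤ 1 := by
        have h5 := hpC.trans (mul_le_of_le_one_right hC.le he1)
        rw [hp] at h5
        nlinarith
      have := Real.exp_le_one_iff.1 h4
      linarith
    have hh : Real.exp (-(t / 2)) ≤ e := by
      rw [hp] at h1
      have h6 : Real.exp (-t) = Real.exp (-(t / 2)) * Real.exp (-(t / 2)) := by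
        rw [← Real.exp_add]; congr 1; ring
      rw [h6] at h1
      exact (mul_self_le_mul_self_iff (Real.exp_nonneg _) he0.le).2 (le_of_mul_le_mul_left h1 hC)
    have hte : Real.exp (-t) * t ≤ 2 * Real.exp (-(t / 2)) := by
      have h7 : t / 2 ≤ Real.exp (t / 2) := by linarith [Real.add_one_le_exp (t / 2)]
      have h8 : Real.exp (-t) * Real.exp (t / 2) = Real.exp (-(t / 2)) := by
        rw [← Real.exp_add]; congr 1; ring
      nlinarith [Real.exp_pos (-t)]
    calc Real.exp (-V x) * |V x| ≤ Real.exp (-V x) * (t + |Real.log C|) := by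
          refine mul_le_mul_of_nonneg_left ?_ (Real.exp_nonneg _)
          rw [abs_le]
          constructor <;> linarith [le_abs_self (Real.log C), neg_abs_le (Real.log C)]
      _ = C * (Real.exp (-t) * t) + |Real.log C| * Real.exp (-V x) := by rw [hp]; ring
      _ ≤ C * (2 * e) + |Real.log C| * (C * e) := by
          refine add_le_add (mul_le_mul_of_nonneg_left ?_ hC.le)
            (mul_le_mul_of_nonneg_left hpC (abs_nonneg _))
          linarith
      _ = _ := by ring
  refine ⟨fun x => ?_, fun x => ?_⟩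
  · refine (mul_le_mul_of_nonneg_right (main x).1 (by positivity)).trans ?_
    have h0 : 0 ≤ ((2 * C + |Real.log C| * C)) * ((1 + ‖x‖) ^ 5
        * Real.exp (-((2 * R)⁻¹ * ‖x‖))) := by positivity
    linarith
  · refine (mul_le_mul_of_nonneg_right (main x).2 (by positivity)).trans ?_
    have h0 : 0 ≤ C * ((1 + ‖x‖) ^ 5 * Real.exp (-((2 * R)⁻¹ * ‖x‖))) := by positivity
    linarith

lemma trace_sq_eq {A : Matrix (Fin k) (Fin k) ℝ} (hA : A.IsHermitian) :
    (A * A).trace = ∑ i, hA.eigenvalues i ^ 2 := by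
  conv_lhs => rw [hA.spectral_theorem]
  rw [← map_mul, Unitary.conjStarAlgAut_apply, Matrix.trace_mul_cycle,
    Matrix.diagonal_mul_diagonal]
  simp [sq]

lemma log_det_ge {A : Matrix (Fin k) (Fin k) ℝ} (hA : A.PosDef) {ν : ℝ}
    (hν : ∀ i l, |A i l - (1 : Matrix (Fin k) (Fin k) ℝ) i l| ≤ ν) (hsm : (k : ℝ) * ν ≤ 1 / 2) :
    (∑ i, (A i i - 1)) - (∑ i, ∑ l, (A i l - (1 : Matrix (Fin k) (Fin k) ℝ) i l) ^ 2) / 2
      - 2 * k * ((k : ℝ) * ν) ^ 3 ≤ Real.log A.det := by
  set lam := hA.isHermitian.eigenvalues with hlam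
  have hsum : ∑ i, (A i i - 1) = ∑ i, (lam i - 1) := by
    rw [Finset.sum_sub_distrib, Finset.sum_sub_distrib]
    congr 1
    simpa [Matrix.trace] using hA.isHermitian.trace_eq_sum_eigenvalues
  have hsq : ∑ i, ∑ l, (A i l - (1 : Matrix (Fin k) (Fin k) ℝ) i l) ^ 2
      = ∑ i, (lam i - 1) ^ 2 := by
    have hs : ∀ i l, A l i = A i l := fun i l => by simpa using hA.isHermitian.apply i l
    have h1 : ∑ i, ∑ l, (A i l - (1 : Matrix (Fin k) (Fin k) ℝ) i l) ^ 2
        = (A * A).trace - 2 * A.trace + k := by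
      simp only [Matrix.trace, Matrix.diag, Matrix.mul_apply, Finset.mul_sum]
      rw [show (k : ℝ) = ∑ _i : Fin k, (1 : ℝ) by simp, ← Finset.sum_sub_distrib,
        ← Finset.sum_add_distrib]
      refine Finset.sum_congr rfl fun i _ => ?_
      simp only [hs i, sub_sq, Finset.sum_add_distrib, Finset.sum_sub_distrib, Matrix.one_apply]
      simp [sq]
    rw [h1, trace_sq_eq hA.isHermitian, hA.isHermitian.trace_eq_sum_eigenvalues]
    simp [sub_sq, Finset.sum_add_distrib, Finset.sum_sub_distrib, ← Finset.mul_sum, hlam]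
  have hsmall : ∀ i, |lam i - 1| ≤ (k : ℝ) * ν := by
    intro i
    have hν0 : 0 ≤ ν := (abs_nonneg _).trans (hν i i)
    refine abs_le_of_sq_le_sq ?_ (by positivity)
    calc (lam i - 1) ^ 2 ≤ ∑ i, (lam i - 1) ^ 2 :=
          Finset.single_le_sum (f := fun i => (lam i - 1) ^ 2) (fun i _ => sq_nonneg _)
            (Finset.mem_univ i)
      _ = _ := hsq.symm
      _ ≤ ∑ _i : Fin k, ∑ _l : Fin k, ν ^ 2 := Finset.sum_le_sum fun i _ =>
          Finset.sum_le_sum fun l _ => by
            rw [← sq_abs]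
            exact pow_le_pow_left₀ (abs_nonneg _) (hν i l) 2
      _ = _ := by simp; ring
  rw [hA.isHermitian.det_eq_prod_eigenvalues]
  simp only [RCLike.ofReal_real_eq_id, id_eq]
  rw [Real.log_prod fun i _ => (hA.eigenvalues_pos i).ne',
    hsum, hsq, Finset.sum_div, ← Finset.sum_sub_distrib,
    show 2 * (k : ℝ) * ((k : ℝ) * ν) ^ 3 = ∑ _i : Fin k, 2 * ((k : ℝ) * ν) ^ 3 by simp; ring,
    ← Finset.sum_sub_distrib]
  refine Finset.sum_le_sum fun i _ => ?_
  have h0 := hsmall i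
  have hlt : |-(lam i - 1)| < 1 := by rw [abs_neg]; linarith
  have h := Real.abs_log_sub_add_sum_range_le hlt 2
  simp only [Finset.sum_range_succ, Finset.range_zero, Finset.sum_empty, abs_neg] at h
  norm_num at h
  have h3 : |lam i - 1| ^ 3 / (1 - |lam i - 1|) ≤ 2 * ((k : ℝ) * ν) ^ 3 := by
    rw [div_le_iff₀ (by linarith)]
    have := pow_le_pow_left₀ (abs_nonneg _) h0 3
    nlinarith [pow_nonneg (abs_nonneg (lam i - 1)) 3, pow_nonneg ((abs_nonneg _).trans h0) 3]
  have := (abs_le.1 h).1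
  simp only [RCLike.ofReal_real_eq_id, id_eq, hlam] at this h3 ⊢
  nlinarith

lemma mean_coord {V : E k → ℝ} {B : E k →L[ℝ] E k →L[ℝ] ℝ} {ε Λ : ℝ} (hV : Hyp V B ε Λ)
    (i : Fin k) : ex V (fun x => x i) = 0 := by
  rw [← hV.mean (EuclideanSpace.single i 1)]
  exact ex_congr fun x => by simp [PiLp.inner_apply, PiLp.single_apply]

lemma cov_coord {V : E k → ℝ} {B : E k →L[ℝ] E k →L[ℝ] ℝ} {ε Λ : ℝ} (hV : Hyp V B ε Λ)
    (i l : Fin k) : ex V (fun x => x i * x l) = (1 : Matrix (Fin k) (Fin k) ℝ) i l := by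
  calc ex V (fun x => x i * x l)
      = ex V (fun x => ⟪x, EuclideanSpace.single i (1:ℝ)⟫ * ⟪x, EuclideanSpace.single l (1:ℝ)⟫) :=
        ex_congr fun x => by simp [PiLp.inner_apply, PiLp.single_apply]
    _ = _ := by rw [hV.cov]; simp [PiLp.inner_apply, PiLp.single_apply, Matrix.one_apply, eq_comm]

/-- The form is at most the identity on the diagonal. -/
lemma formMat_diag_le {V : E k → ℝ} {B : E k →L[ℝ] E k →L[ℝ] ℝ} {ε Λ : ℝ} (hV : Hyp V B ε Λ)
    (j : Fin k) : formMat B j j ≤ 1 := by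
  set e : E k := EuclideanSpace.single j 1
  set f : E k →L[ℝ] ℝ := B.flip e with hf
  have hG : ∀ x v, 0 ≤ B e e + 2 * fderiv ℝ (fun x => f x) x v + D2 V x v v := fun x v => by
    have h1 := hV.Bnonneg (v + e)
    simp only [map_add, add_apply] at h1
    rw [ContinuousLinearMap.fderiv, hf, ContinuousLinearMap.flip_apply]
    linarith [hV.Ble x v, hV.Bsymm e v]
  have hbl := hV.pin.bl (f := fun x => f x) (G := fun _ => B e e) f.contDiff (tame_id.clm f)
    (Tame.const _) hG
  set w : E k := (InnerProductSpace.toDual ℝ (E k)).symm f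
  have hw : ∀ x, f x = ⟪x, w⟫ := fun x => by
    rw [real_inner_comm]
    exact (InnerProductSpace.toDual_symm_apply).symm
  simp only [hw, hV.mean w, hV.pin.ex_const, sq] at hbl
  rw [hV.cov] at hbl
  have h1 : ⟪e, w⟫ = B e e := by rw [← hw, hf, ContinuousLinearMap.flip_apply]
  have h2 := real_inner_mul_inner_self_le e w
  have h3 : ⟪e, e⟫ = (1 : ℝ) := by simp [e, PiLp.inner_apply, PiLp.single_apply]
  rw [h1, h3] at h2
  change B e e ≤ 1
  nlinarith [hV.Bnonneg e]

lemma const_le {k K : ℝ} (hk : 0 ≤ k) (hK : 1 ≤ K) :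
    k * (22 * (28 * K)) + k * (k * ((2 * K + (1 + 22 * (28 * K))) * (1 + 22 * (28 * K)))) / 2
      + 2 * k * (k * (K + 1 + 22 * (28 * K))) ^ 3
      ≤ (1000 * K) ^ 3 * (k + 1) ^ 4 * 8 := by
  have hK3 : K ≤ K ^ 3 := le_self_pow₀ hK (by norm_num)
  have hK23 : K ^ 2 ≤ K ^ 3 := pow_le_pow_right₀ hK (by norm_num)
  have h1 : k ≤ (k + 1) ^ 4 := le_trans (by linarith) (le_self_pow₀ (by linarith) (by norm_num))
  have h2 : k ^ 2 ≤ (k + 1) ^ 4 := (pow_le_pow_left₀ hk (by linarith) 2).trans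
    (pow_le_pow_right₀ (by linarith) (by norm_num))
  have h4 : k ^ 4 ≤ (k + 1) ^ 4 := pow_le_pow_left₀ hk (by linarith) 4
  have a1 : k * (22 * (28 * K)) ≤ (k + 1) ^ 4 * (1000 * K ^ 3) :=
    mul_le_mul h1 (by linarith) (by positivity) (by positivity)
  have a2 : k ^ 2 * ((2 * K + (1 + 22 * (28 * K))) * (1 + 22 * (28 * K)))
      ≤ (k + 1) ^ 4 * (1000000 * K ^ 3) := by
    refine mul_le_mul h2 ?_ (by positivity) (by positivity)
    calc (2 * K + (1 + 22 * (28 * K))) * (1 + 22 * (28 * K)) ≤ (1000 * K) * (1000 * K) := by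
          gcongr <;> linarith
      _ ≤ _ := by linarith
  have a3 : k ^ 4 * (K + 1 + 22 * (28 * K)) ^ 3 ≤ (k + 1) ^ 4 * (1000 * K) ^ 3 :=
    mul_le_mul h4 (pow_le_pow_left₀ (by positivity) (by linarith) 3) (by positivity) (by positivity)
  have a4 : 0 ≤ (k + 1) ^ 4 * K ^ 3 := by positivity
  linarith

lemma const_le2 {k K : ℝ} (hk : 0 ≤ k) (hK : 1 ≤ K) :
    20 * (28 * K) * K + 2 * (k * (k * (22 * (28 * K))) + (K + 1 + 22 * (28 * K)))
      ≤ (1000 * K) ^ 3 * (k + 1) ^ 4 * 8 := by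
  have hK3 : K ≤ K ^ 3 := le_self_pow₀ hK (by norm_num)
  have hK23 : K ^ 2 ≤ K ^ 3 := pow_le_pow_right₀ hK (by norm_num)
  have h2 : k ^ 2 ≤ (k + 1) ^ 4 := (pow_le_pow_left₀ hk (by linarith) 2).trans
    (pow_le_pow_right₀ (by linarith) (by norm_num))
  have a0 : K ^ 3 ≤ (k + 1) ^ 4 * K ^ 3 :=
    le_mul_of_one_le_left (by positivity) (one_le_pow₀ (by linarith))
  have a1 : k ^ 2 * K ≤ (k + 1) ^ 4 * K ^ 3 := mul_le_mul h2 hK3 (by positivity) (by positivity)
  linarith

lemma mul_le_of_le_of_le_one' {a b c : ℝ} (hc : 0 ≤ c) (ha : a ≤ c) (hb : b ≤ 1) (hb0 : 0 ≤ b) :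
    a * b ≤ c :=
  (mul_le_mul_of_nonneg_right ha hb0).trans (mul_le_of_le_one_right hc hb)

/-- Uniform majorants at a state. -/
structure Wt (V : E k → ℝ) (w : E k → ℝ) (K : ℝ) : Prop where
  int : Integrable w
  le : ∫ x, w x ≤ K
  one : 1 ≤ K
  mom : ∀ x, Real.exp (-V x) * (1 + ‖x‖) ^ 5 ≤ w x
  pot : ∀ x, Real.exp (-V x) * |V x| * (1 + ‖x‖) ^ 5 ≤ w x

section Child

variable {V : E k → ℝ} {B : E k →L[ℝ] E k →L[ℝ] ℝ} {ε Λ : ℝ} {w : E k → ℝ} {K s : ℝ}

lemma coord_le (x : E k) (i : Fin k) : |x i| ≤ 1 + ‖x‖ := by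
  have := PiLp.norm_apply_le x i
  rw [Real.norm_eq_abs] at this
  linarith

lemma abs_one_apply_le (i l : Fin k) : |(1 : Matrix (Fin k) (Fin k) ℝ) i l| ≤ 1 := by
  by_cases h : i = l <;> simp [Matrix.one_apply, h]

lemma poly_le (x : E k) {m : ℕ} (hm : m ≤ 5) : (1 + ‖x‖) ^ m ≤ (1 + ‖x‖) ^ 5 :=
  pow_le_pow_right₀ (by linarith [norm_nonneg x]) hm

lemma wt_ex_le (hV : Hyp V B ε Λ) (hw : Wt V w K) {g : E k → ℝ}
    (hg : ∀ x, Real.exp (-V x) * |g x| ≤ w x) : |ex V g| ≤ K := by
  rw [ex, hV.mass, inv_one, one_smul, ← Real.norm_eq_abs]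
  exact (norm_integral_le_of_norm_le hw.int (Filter.Eventually.of_forall fun x => by
    simpa [abs_mul] using hg x)).trans hw.le

lemma third_le (hV : Hyp V B ε Λ) (hw : Wt V w K) (i m l : Fin k) : |third V i m l| ≤ K :=
  wt_ex_le hV hw fun x => by
    refine le_trans (mul_le_mul_of_nonneg_left (?_ : _ ≤ (1 + ‖x‖) ^ 5) (Real.exp_nonneg _))
      (hw.mom x)
    rw [abs_mul, abs_mul]
    calc |x i| * |x m| * |x l| ≤ (1 + ‖x‖) * (1 + ‖x‖) * (1 + ‖x‖) := by
          gcongr <;> exact coord_le x _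
      _ = (1 + ‖x‖) ^ 3 := by ring
      _ ≤ _ := poly_le x (by norm_num)

/-- First order expansion of the integrals. -/
lemma child_int (hV : Hyp V B ε Λ) (hw : Wt V w K) (j : Fin k) (s : ℝ) {g : E k → ℝ} (hg : Tame g)
    (hgw : ∀ x, Real.exp (-V x) * |g x| * (1 + ‖x‖) ^ 3 ≤ w x) :
    |(∫ x, Real.exp (-childV V j s x) * g x) - (ex V g + s * ex V (fun x => x j * g x))|
      ≤ 28 * K * |s| ^ 3 := by
  have hp := hV.pin
  have i1 := hp.integrable hg
  have i2 := hp.integrable ((tame_coord j).mul hg)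
  have i3 := (childV_pinched hp j s).integrable hg
  simp only [smul_eq_mul] at i1 i2 i3
  simp only [ex, hV.mass, inv_one, one_mul, smul_eq_mul]
  rw [← integral_const_mul, ← integral_add i1 (i2.const_mul s),
    ← integral_sub i3 (show Integrable (fun x => Real.exp (-V x) * g x
      + s * (Real.exp (-V x) * (x j * g x))) from i1.add (i2.const_mul s)), ← Real.norm_eq_abs]
  refine (norm_integral_le_of_norm_le (hw.int.const_mul (28 * |s| ^ 3))
    (Filter.Eventually.of_forall fun x => ?_)).trans ?_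
  · have e : Real.exp (-childV V j s x) * g x
        - (Real.exp (-V x) * g x + s * (Real.exp (-V x) * (x j * g x)))
        = Real.exp (-V x) * g x * rem (s * x j) := by
      rw [childV, rem, show -(V x - s * x j + s ^ 2 * x j ^ 2 / 2)
        = -V x + (s * x j - (s * x j) ^ 2 / 2) by ring, Real.exp_add]
      ring
    rw [e, Real.norm_eq_abs, abs_mul, abs_mul, Real.abs_exp]
    calc Real.exp (-V x) * |g x| * |rem (s * x j)|
        ≤ Real.exp (-V x) * |g x| * (28 * (|s| ^ 3 * (1 + ‖x‖) ^ 3)) := by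
          refine mul_le_mul_of_nonneg_left ((rem_le _).trans ?_) (by positivity)
          rw [abs_mul, mul_pow]
          gcongr
          exact coord_le x j
      _ = 28 * |s| ^ 3 * (Real.exp (-V x) * |g x| * (1 + ‖x‖) ^ 3) := by ring
      _ ≤ _ := mul_le_mul_of_nonneg_left (hgw x) (by positivity)
  · rw [integral_const_mul]
    calc 28 * |s| ^ 3 * ∫ x, w x ≤ 28 * |s| ^ 3 * K :=
          mul_le_mul_of_nonneg_left hw.le (by positivity)
      _ = _ := by ring

lemma wt_one (hw : Wt V w K) (x : E k) :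
    Real.exp (-V x) * |(1 : ℝ)| * (1 + ‖x‖) ^ 3 ≤ w x := by
  rw [abs_one, mul_one]
  exact le_trans (mul_le_mul_of_nonneg_left (poly_le x (by norm_num)) (Real.exp_nonneg _)) (hw.mom x)

lemma wt_coord (hw : Wt V w K) (i : Fin k) (x : E k) :
    Real.exp (-V x) * |x i| * (1 + ‖x‖) ^ 3 ≤ w x := by
  refine le_trans ?_ (hw.mom x)
  rw [mul_assoc]
  refine mul_le_mul_of_nonneg_left ?_ (Real.exp_nonneg _)
  calc |x i| * (1 + ‖x‖) ^ 3 ≤ (1 + ‖x‖) * (1 + ‖x‖) ^ 3 :=
        mul_le_mul_of_nonneg_right (coord_le x i) (by positivity)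
    _ = (1 + ‖x‖) ^ 4 := by ring
    _ ≤ _ := poly_le x (by norm_num)

lemma wt_coord2 (hw : Wt V w K) (i l : Fin k) (x : E k) :
    Real.exp (-V x) * |x i * x l| * (1 + ‖x‖) ^ 3 ≤ w x := by
  refine le_trans ?_ (hw.mom x)
  rw [mul_assoc, abs_mul]
  refine mul_le_mul_of_nonneg_left ?_ (Real.exp_nonneg _)
  calc |x i| * |x l| * (1 + ‖x‖) ^ 3 ≤ (1 + ‖x‖) * (1 + ‖x‖) * (1 + ‖x‖) ^ 3 := by
        gcongr <;> exact coord_le x _
    _ = _ := by ring

lemma small_facts (hw : Wt V w K) (hs : |s| * K ≤ 1 / 1000) :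
    |s| ≤ 1 / 1000 ∧ |s| ^ 3 ≤ |s| * (1 / 1000000) ∧ 28 * K * |s| ^ 3 ≤ 1 / 1000 := by
  have h1 : |s| ≤ 1 / 1000 := le_trans (le_mul_of_one_le_right (abs_nonneg s) hw.one) hs
  have h2 : |s| ^ 3 ≤ |s| * (1 / 1000000) := by
    calc |s| ^ 3 = |s| * |s| ^ 2 := by ring
      _ ≤ _ := mul_le_mul_of_nonneg_left ((pow_le_pow_left₀ (abs_nonneg s) h1 2).trans
            (by norm_num)) (abs_nonneg s)
  have h3 := hw.one
  refine ⟨h1, h2, ?_⟩
  calc 28 * K * |s| ^ 3 ≤ 28 * K * (|s| * (1 / 1000000)) := by gcongr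
    _ ≤ _ := by linarith

lemma child_mass (hV : Hyp V B ε Λ) (hw : Wt V w K) (j : Fin k) :
    |Zc (childV V j s) - 1| ≤ 28 * K * |s| ^ 3 := by
  have h := child_int hV hw j s (Tame.const 1) (wt_one hw)
  simp only [mul_one, hV.pin.ex_const, mean_coord hV j, mul_zero, add_zero] at h
  exact h

lemma child_quot (hV : Hyp V B ε Λ) (hw : Wt V w K) (hs : |s| * K ≤ 1 / 1000) (j : Fin k)
    {N Q D : ℝ} (h : |N - Q| ≤ D) :
    |(Zc (childV V j s))⁻¹ * N - Q| ≤ 2 * (D + 28 * K * |s| ^ 3 * |Q|) := by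
  have hZ := child_mass (s := s) hV hw j
  have hl := (small_facts hw hs).2.2
  set Z := Zc (childV V j s)
  have hZl : 1 / 2 ≤ Z := by linarith [(abs_le.1 hZ).1]
  rw [show Z⁻¹ * N - Q = ((N - Q) - (Z - 1) * Q) / Z by field_simp; ring, abs_div,
    abs_of_pos (by linarith : 0 < Z), div_le_iff₀ (by linarith)]
  refine (abs_sub _ _).trans ?_
  rw [abs_mul]
  have h1 := mul_le_mul_of_nonneg_right hZ (abs_nonneg Q)
  have h2 : 0 ≤ D + 28 * K * |s| ^ 3 * |Q| := by
    have := hw.one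
    have := (abs_nonneg (N - Q)).trans h
    positivity
  have h3 := mul_le_mul_of_nonneg_left hZl h2
  linarith

lemma child_mean (hV : Hyp V B ε Λ) (hw : Wt V w K) (hs : |s| * K ≤ 1 / 1000) (i j : Fin k) :
    |mu (childV V j s) i - s * (1 : Matrix (Fin k) (Fin k) ℝ) i j| ≤ 4 * (28 * K) * |s| ^ 3 := by
  have h := child_int hV hw j s (tame_coord i) (wt_coord hw i)
  rw [mean_coord hV i, ex_congr (fun x => mul_comm (x j) (x i)), cov_coord hV i j, zero_add] at h
  simp only [mu, ex, smul_eq_mul]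
  refine (child_quot hV hw hs j h).trans ?_
  have hK := hw.one
  have h1 : |s * (1 : Matrix (Fin k) (Fin k) ℝ) i j| ≤ 1 := by
    rw [abs_mul]
    exact mul_le_one₀ ((small_facts hw hs).1.trans (by norm_num)) (abs_nonneg _)
      (abs_one_apply_le i j)
  have := mul_le_mul_of_nonneg_left h1 (show 0 ≤ 28 * K * |s| ^ 3 by positivity)
  linarith

lemma child_second (hV : Hyp V B ε Λ) (hw : Wt V w K) (hs : |s| * K ≤ 1 / 1000) (i l j : Fin k) :
    |ex (childV V j s) (fun x => x i * x l)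
      - ((1 : Matrix (Fin k) (Fin k) ℝ) i l + s * third V i j l)| ≤ 6 * (28 * K) * |s| ^ 3 := by
  have h := child_int hV hw j s ((tame_coord i).mul (tame_coord l)) (wt_coord2 hw i l)
  rw [cov_coord hV i l, ex_congr (fun x => (by ring : x j * (x i * x l) = x i * x j * x l)),
    show ex V (fun x : E k => x i * x j * x l) = third V i j l from rfl] at h
  simp only [ex, smul_eq_mul]
  refine (child_quot hV hw hs j h).trans ?_
  have hK := hw.one
  have h1 : |(1 : Matrix (Fin k) (Fin k) ℝ) i l + s * third V i j l| ≤ 2 := by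
    refine (abs_add_le _ _).trans ?_
    rw [abs_mul]
    linarith [abs_one_apply_le i l, mul_le_mul_of_nonneg_left (third_le hV hw i j l) (abs_nonneg s)]
  have := mul_le_mul_of_nonneg_left h1 (show 0 ≤ 28 * K * |s| ^ 3 by positivity)
  linarith

/-- The covariance of a child. -/
lemma child_cov (hV : Hyp V B ε Λ) (hw : Wt V w K) (hs : |s| * K ≤ 1 / 1000) (i l j : Fin k) :
    |(cov (childV V j s) i l - (1 : Matrix (Fin k) (Fin k) ℝ) i l)
      - (s * third V i j l - s ^ 2 * ((1 : Matrix (Fin k) (Fin k) ℝ) i j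
          * (1 : Matrix (Fin k) (Fin k) ℝ) l j))| ≤ 22 * (28 * K) * |s| ^ 3 := by
  have hc := childV_pinched hV.pin j s
  have t := tame_coord (k := k)
  have ecov : cov (childV V j s) i l
      = ex (childV V j s) (fun x => x i * x l) - mu (childV V j s) i * mu (childV V j s) l := by
    have e : ∀ x : E k, (x i - mu (childV V j s) i) * (x l - mu (childV V j s) l)
        = (x i * x l - mu (childV V j s) i * x l)
          - (mu (childV V j s) l * x i - mu (childV V j s) i * mu (childV V j s) l) := fun x => by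
      ring
    simp only [cov, Matrix.of_apply]
    rw [ex_congr e, hc.ex_sub (((t i).mul (t l)).sub ((t l).const_mul _))
      (((t i).const_mul _).sub (Tame.const _)), hc.ex_sub ((t i).mul (t l)) ((t l).const_mul _),
      hc.ex_sub ((t i).const_mul _) (Tame.const _), ex_const_mul, ex_const_mul, hc.ex_const]
    simp only [mu]
    ring
  set δ := (1 : Matrix (Fin k) (Fin k) ℝ)
  set ri := mu (childV V j s) i - s * δ i j with hri
  set rl := mu (childV V j s) l - s * δ l j with hrl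
  have e2 : (cov (childV V j s) i l - δ i l) - (s * third V i j l - s ^ 2 * (δ i j * δ l j))
      = (ex (childV V j s) (fun x => x i * x l) - (δ i l + s * third V i j l))
        - (ri * (s * δ l j) + rl * (s * δ i j) + ri * rl) := by
    rw [ecov, hri, hrl]; ring
  rw [e2]
  refine (abs_sub _ _).trans ?_
  have hK := hw.one
  set P := 4 * (28 * K) * |s| ^ 3 with hPdef
  have hP0 : 0 ≤ P := by positivity
  have hP1 : P ≤ 1 / 250 := by linarith [(small_facts hw hs).2.2, hPdef]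
  have hsd : ∀ m, |s * δ m j| ≤ 1 := fun m => by
    rw [abs_mul]
    exact mul_le_one₀ ((small_facts hw hs).1.trans (by norm_num)) (abs_nonneg _) (abs_one_apply_le m j)
  have q1 : |ri * (s * δ l j)| ≤ P := by
    rw [abs_mul]; exact mul_le_of_le_of_le_one' hP0 (child_mean hV hw hs i j) (hsd l) (abs_nonneg _)
  have q2 : |rl * (s * δ i j)| ≤ P := by
    rw [abs_mul]; exact mul_le_of_le_of_le_one' hP0 (child_mean hV hw hs l j) (hsd i) (abs_nonneg _)
  have q3 : |ri * rl| ≤ P := by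
    rw [abs_mul]
    exact mul_le_of_le_of_le_one' hP0 (child_mean hV hw hs i j)
      ((child_mean hV hw hs l j).trans (by linarith)) (abs_nonneg _)
  have a1 := (abs_add_three (ri * (s * δ l j)) (rl * (s * δ i j)) (ri * rl)).trans
    (add_le_add (add_le_add q1 q2) q3)
  linarith [child_second hV hw hs i l j, hPdef, show 0 ≤ 28 * K * |s| ^ 3 by positivity]

/-- The entropy of a child. -/
lemma child_ent (hV : Hyp V B ε Λ) (hw : Wt V w K) (hs : |s| * K ≤ 1 / 1000) (j : Fin k) :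
    ent (childV V j s)
      ≤ ent V + s * ex V (fun x => x j * V x) - s ^ 2 / 2 + 20 * (28 * K) * K * |s| ^ 3 := by
  have hp := hV.pin
  have hc := childV_pinched hp j s
  have hK := hw.one
  obtain ⟨hsa, hs3, hL⟩ := small_facts hw hs
  set L := 28 * K with hLdef
  set EV := ex V V
  set Lv := ex V (fun x => x j * V x)
  have hEV : |EV| ≤ K := wt_ex_le hV hw fun x => le_trans (le_mul_of_one_le_right (by positivity)
    (one_le_pow₀ (by linarith [norm_nonneg x]))) (hw.pot x)
  have hLv : |Lv| ≤ K := wt_ex_le hV hw fun x => by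
    rw [abs_mul, mul_comm |x j|, ← mul_assoc]
    refine le_trans (mul_le_mul_of_nonneg_left (?_ : _ ≤ (1 + ‖x‖) ^ 5) (by positivity)) (hw.pot x)
    exact (coord_le x j).trans (le_self_pow₀ (by linarith [norm_nonneg x]) (by norm_num))
  have h1 := child_int hV hw j s (tame_pot hp) fun x =>
    le_trans (mul_le_mul_of_nonneg_left (poly_le x (by norm_num)) (by positivity)) (hw.pot x)
  have h2 := child_int hV hw j s (tame_coord j) (wt_coord hw j)
  have h3 := child_int hV hw j s ((tame_coord j).mul (tame_coord j)) (wt_coord2 hw j j)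
  rw [mean_coord hV j, cov_coord hV j j, zero_add, Matrix.one_apply_eq, mul_one] at h2
  rw [cov_coord hV j j, Matrix.one_apply_eq,
    ex_congr (fun x => (by ring : x j * (x j * x j) = x j * x j * x j)),
    show ex V (fun x : E k => x j * x j * x j) = third V j j j from rfl] at h3
  have i1 := hc.integrable (tame_pot hp)
  have i2 := hc.integrable (tame_coord (k := k) j)
  have i3 := hc.integrable ((tame_coord (k := k) j).mul (tame_coord j))
  simp only [smul_eq_mul] at i1 i2 i3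
  set I1 := ∫ x, Real.exp (-childV V j s x) * V x
  set I2 := ∫ x, Real.exp (-childV V j s x) * x j
  set I3 := ∫ x, Real.exp (-childV V j s x) * (x j * x j)
  have hnum : ∫ x, Real.exp (-childV V j s x) * childV V j s x
      = I1 - s * I2 + s ^ 2 / 2 * I3 := by
    simp only [I1, I2, I3]
    have i4 : Integrable fun x => Real.exp (-childV V j s x) * V x
        - s * (Real.exp (-childV V j s x) * x j) := i1.sub (i2.const_mul _)
    rw [← integral_const_mul, ← integral_const_mul, ← integral_sub i1 (i2.const_mul _),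
      ← integral_add i4 (i3.const_mul (s ^ 2 / 2))]
    congr 1
    ext x
    simp only [childV]
    ring
  have p : 0 ≤ L * |s| ^ 3 := by positivity
  have hs2 : s ^ 2 / 2 ≤ 1 := by
    have := pow_le_pow_left₀ (abs_nonneg s) hsa 2
    rw [sq_abs] at this
    linarith
  set Q := EV + s * Lv - s ^ 2 / 2 with hQdef
  have hN' : |I1 - s * I2 + s ^ 2 / 2 * I3 - Q| ≤ 5 * L * |s| ^ 3 := by
    have a1 := abs_le.1 h1
    have a2 : |s * (I2 - s)| ≤ L * |s| ^ 3 := by
      rw [abs_mul]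
      exact mul_le_of_le_of_le_one' p h2 (hsa.trans (by norm_num)) (abs_nonneg _) |>.trans' (by rw [mul_comm])
    have a3 : |s ^ 2 / 2 * (I3 - (1 + s * third V j j j))| ≤ L * |s| ^ 3 := by
      rw [abs_mul, abs_of_nonneg (by positivity : 0 ≤ s ^ 2 / 2), mul_comm]
      exact mul_le_of_le_of_le_one' p h3 hs2 (by positivity)
    have a4 : |s ^ 2 / 2 * (s * third V j j j)| ≤ L * |s| ^ 3 := by
      rw [abs_mul, abs_mul, abs_of_nonneg (by positivity : 0 ≤ s ^ 2 / 2)]
      calc s ^ 2 / 2 * (|s| * |third V j j j|) ≤ s ^ 2 / 2 * (|s| * K) := by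
            gcongr; exact third_le hV hw j j j
        _ = K / 2 * |s| ^ 3 := by rw [← sq_abs s]; ring
        _ ≤ _ := mul_le_mul_of_nonneg_right (by rw [hLdef]; linarith) (by positivity)
    have e : I1 - s * I2 + s ^ 2 / 2 * I3 - Q = (I1 - (EV + s * Lv)) - s * (I2 - s)
        + s ^ 2 / 2 * (I3 - (1 + s * third V j j j)) + s ^ 2 / 2 * (s * third V j j j) := by
      rw [hQdef]; ring
    rw [e, abs_le]
    constructor <;> linarith [abs_le.1 a2, abs_le.1 a3, abs_le.1 a4]
  have hQ : |Q| ≤ 3 * K := by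
    have b1 : |s * Lv| ≤ K := by
      rw [abs_mul, mul_comm]
      exact mul_le_of_le_of_le_one' (by linarith) hLv (hsa.trans (by norm_num)) (abs_nonneg _)
    rw [hQdef, abs_le]
    constructor <;> linarith [abs_le.1 b1, abs_le.1 hEV, sq_nonneg s]
  have hq := child_quot hV hw hs j hN'
  have hZ := child_mass (s := s) hV hw j
  have hlogZ : Real.log (Zc (childV V j s)) ≤ Zc (childV V j s) - 1 :=
    Real.log_le_sub_one_of_pos hc.zc_pos
  have hQm := mul_le_mul_of_nonneg_left hQ p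
  have hpK : L * |s| ^ 3 ≤ L * |s| ^ 3 * K := le_mul_of_one_le_right p hK
  have ee : ex (childV V j s) (childV V j s)
      = (Zc (childV V j s))⁻¹ * (I1 - s * I2 + s ^ 2 / 2 * I3) := by rw [ex, smul_eq_mul, ← hnum]; rfl
  rw [ent, ee]
  rw [ent, hV.mass, Real.log_one, add_zero]
  change _ ≤ EV + _ - _ + _
  linarith [(abs_le.1 hq).2, (abs_le.1 hZ).2]

lemma formMat_abs_le (hV : Hyp V B ε Λ) (i l : Fin k) : |formMat B l i| ≤ 1 := by
  have h1 := hV.Bnonneg (EuclideanSpace.single l (1:ℝ) + EuclideanSpace.single i (1:ℝ))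
  have h2 := hV.Bnonneg (EuclideanSpace.single l (1:ℝ) - EuclideanSpace.single i (1:ℝ))
  have h3 := formMat_diag_le hV i
  have h4 := formMat_diag_le hV l
  simp only [formMat, Matrix.of_apply] at h3 h4 ⊢
  simp only [map_add, map_sub, add_apply, sub_apply] at h1 h2
  have := hV.Bsymm (EuclideanSpace.single l (1:ℝ)) (EuclideanSpace.single i (1:ℝ))
  rw [abs_le]
  constructor <;> linarith

lemma child_trace (B : E k →L[ℝ] E k →L[ℝ] ℝ) (A : Matrix (Fin k) (Fin k) ℝ) (j : Fin k) (s : ℝ) :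
    (A * formMat (childB B j s)).trace = trB B + s ^ 2
      + (∑ i, ∑ l, (A i l - (1 : Matrix (Fin k) (Fin k) ℝ) i l) * formMat B l i)
      + s ^ 2 * (A j j - 1) := by
  have e : ∀ l i, formMat (childB B j s) l i = formMat B l i
      + s ^ 2 * ((1 : Matrix (Fin k) (Fin k) ℝ) l j * (1 : Matrix (Fin k) (Fin k) ℝ) i j) := by
    intro l i
    by_cases h1 : l = j <;> by_cases h2 : i = j <;>
      simp [formMat, childB, h1, h2, Matrix.one_apply, Ne.symm]
  simp only [Matrix.trace, Matrix.diag, Matrix.mul_apply, e, mul_add, sub_mul,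
    Finset.sum_add_distrib, Finset.sum_sub_distrib]
  simp [Matrix.one_apply, trB, formMat]
  ring

/-- The logarithm of the determinant of a child covariance. -/
lemma child_logdet (hV : Hyp V B ε Λ) (hw : Wt V w K)
    (hs : |s| * (1000000 * K * ((k : ℝ) + 1)) ≤ 1) (j : Fin k) :
    s * (∑ i, third V i j i) - s ^ 2 - (∑ i, ∑ l, third V i j l ^ 2) * s ^ 2 / 2
      - (1000 * K) ^ 3 * ((k : ℝ) + 1) ^ 4 * 8 * |s| ^ 3
      ≤ Real.log (cov (childV V j s)).det := by
  have hK := hw.one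
  have hk0 : (0 : ℝ) ≤ k := Nat.cast_nonneg k
  have hs0 := abs_nonneg s
  have hsk : |s| * K * ((k : ℝ) + 1) ≤ 1 / 1000000 := by linarith
  have hs' : |s| * K ≤ 1 / 1000 := by
    have : |s| * K ≤ |s| * K * ((k : ℝ) + 1) := le_mul_of_one_le_right (by positivity) (by linarith)
    linarith
  obtain ⟨hsa, hs3, -⟩ := small_facts hw hs'
  set δ := (1 : Matrix (Fin k) (Fin k) ℝ) with hδ
  set X : Fin k → Fin k → ℝ := fun i l => cov (childV V j s) i l - δ i l with hX
  set D := 22 * (28 * K) with hDdef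
  have hD0 : 0 ≤ D := by positivity
  have hD := fun i l => child_cov hV hw hs' i l j
  have hdd : ∀ i l, |δ i j * δ l j| ≤ 1 := fun i l => by
    rw [abs_mul]; exact mul_le_one₀ (abs_one_apply_le _ _) (abs_nonneg _) (abs_one_apply_le _ _)
  have hs2 : |s| ^ 3 ≤ s ^ 2 := by
    rw [← sq_abs]
    exact pow_le_pow_of_le_one hs0 (hsa.trans (by norm_num)) (by norm_num)
  have hQ : ∀ i l, |X i l - s * third V i j l| ≤ s ^ 2 * (1 + D) := by
    intro i l
    rw [show X i l - s * third V i j l = (X i l - (s * third V i j l - s ^ 2 * (δ i j * δ l j)))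
      - s ^ 2 * (δ i j * δ l j) by ring]
    refine (abs_sub _ _).trans ?_
    rw [abs_mul, abs_of_nonneg (sq_nonneg s)]
    have a1 := mul_le_mul_of_nonneg_left (hdd i l) (sq_nonneg s)
    have a2 := (hD i l).trans (mul_le_mul_of_nonneg_left hs2 hD0)
    simp only [hX]
    linarith
  set N := K + 1 + D with hNdef
  have hN : ∀ i l, |X i l| ≤ |s| * N := by
    intro i l
    have h1 := abs_add_le (X i l - s * third V i j l) (s * third V i j l)
    rw [sub_add_cancel, abs_mul] at h1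
    have h2 := mul_le_mul_of_nonneg_left (third_le hV hw i j l) hs0
    have h3 : s ^ 2 ≤ |s| := by rw [← sq_abs]; nlinarith
    have h4 := (hQ i l).trans (mul_le_mul_of_nonneg_right h3 (by linarith : 0 ≤ 1 + D))
    linarith [hNdef]
  have hlog := log_det_ge (cov_posDef (childV_pinched hV.pin j s)) (ν := |s| * N) hN (by
    have h1 : N ≤ 1000 * K := by linarith [hNdef, hDdef]
    calc (k : ℝ) * (|s| * N) ≤ ((k : ℝ) + 1) * (|s| * (1000 * K)) := by gcongr; linarith
      _ ≤ _ := by linarith)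
  have htr : |∑ i, X i i - (s * ∑ i, third V i j i - s ^ 2)| ≤ k * (D * |s| ^ 3) := by
    have e : ∑ i, X i i - (s * ∑ i, third V i j i - s ^ 2)
        = ∑ i, (X i i - (s * third V i j i - s ^ 2 * (δ i j * δ i j))) := by
      simp [Finset.sum_sub_distrib, Finset.mul_sum, hδ, Matrix.one_apply]
    rw [e]
    refine (Finset.abs_sum_le_sum_abs _ _).trans ?_
    refine (Finset.sum_le_sum fun i _ => hD i i).trans ?_
    simp [hDdef]
  set q := (2 * K + (1 + D)) * (1 + D) with hq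
  have hterm : ∀ i l, X i l ^ 2 ≤ s ^ 2 * third V i j l ^ 2 + q * |s| ^ 3 := by
    intro i l
    set Q := X i l - s * third V i j l with hQdef
    have h1 : |s * third V i j l * Q| ≤ |s| * K * (s ^ 2 * (1 + D)) := by
      rw [abs_mul, abs_mul]
      gcongr
      · exact third_le hV hw i j l
      · exact hQ i l
    have h2 : Q ^ 2 ≤ (s ^ 2 * (1 + D)) ^ 2 := by
      rw [← sq_abs]
      exact pow_le_pow_left₀ (abs_nonneg _) (hQ i l) 2
    have h4 : (s ^ 2 * (1 + D)) ^ 2 ≤ |s| ^ 3 * ((1 + D) * (1 + D)) := by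
      calc (s ^ 2 * (1 + D)) ^ 2 = |s| ^ 4 * ((1 + D) * (1 + D)) := by
            rw [show |s| ^ 4 = (|s| ^ 2) ^ 2 by ring, sq_abs]; ring
        _ ≤ _ := mul_le_mul_of_nonneg_right
            (pow_le_pow_of_le_one hs0 (hsa.trans (by norm_num)) (by norm_num)) (by positivity)
    have h5 : X i l ^ 2 = s ^ 2 * third V i j l ^ 2 + 2 * (s * third V i j l * Q) + Q ^ 2 := by
      rw [hQdef]; ring
    have h6 : |s| * K * (s ^ 2 * (1 + D)) = |s| ^ 3 * (K * (1 + D)) := by
      rw [← sq_abs]; ring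
    rw [hq]
    linarith [le_abs_self (s * third V i j l * Q)]
  have hsq : ∑ i, ∑ l, X i l ^ 2
      ≤ s ^ 2 * (∑ i, ∑ l, third V i j l ^ 2) + k * (k * (q * |s| ^ 3)) := by
    refine (Finset.sum_le_sum fun i _ => Finset.sum_le_sum fun l _ => hterm i l).trans (le_of_eq ?_)
    simp [Finset.sum_add_distrib, Finset.mul_sum]
  have hconst := const_le hk0 hK
  rw [← hDdef, ← hNdef, ← hq] at hconst
  have hc := mul_le_mul_of_nonneg_right hconst (pow_nonneg hs0 3)
  have e1 : ∑ i, X i i = ∑ i, (cov (childV V j s) i i - 1) := by simp [hX, hδ]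
  simp only [hX] at hsq
  linarith [(abs_le.1 htr).1]

/-- The expansion at one child. -/
theorem phi_child_le (hV : Hyp V B ε Λ) (hw : Wt V w K) {η : ℝ} (hη : 0 ≤ η) (hη1 : η ≤ 1)
    (hs : |s| * (1000000 * K * ((k : ℝ) + 1)) ≤ 1) (j : Fin k) :
    Phi η (childV V j s) (childB B j s) ≤ val η V B
      + s * (ex V (fun x => x j * V x) - (∑ i, third V i j i) / 2
          - (1 + η) * ∑ i, ∑ l, third V i j l * formMat B l i)
      + s ^ 2 * ((∑ i, ∑ l, third V i j l ^ 2) / 4 + (1 + η) * (formMat B j j - 1))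
      + 2 * ((1000 * K) ^ 3 * ((k : ℝ) + 1) ^ 4 * 8) * |s| ^ 3 := by
  have hK := hw.one
  have hk0 : (0 : ℝ) ≤ k := Nat.cast_nonneg k
  have hs0 := abs_nonneg s
  have hs' : |s| * K ≤ 1 / 1000 := by
    have : |s| * K ≤ |s| * K * ((k : ℝ) + 1) := le_mul_of_one_le_right (by positivity) (by linarith)
    linarith
  obtain ⟨hsa, -, -⟩ := small_facts hw hs'
  set δ := (1 : Matrix (Fin k) (Fin k) ℝ) with hδ
  set A := cov (childV V j s) with hA
  set D := 22 * (28 * K) with hDdef
  have hD := fun i l => child_cov hV hw hs' i l j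
  have hlin : |(∑ i, ∑ l, (A i l - δ i l) * formMat B l i)
      - (s * (∑ i, ∑ l, third V i j l * formMat B l i) - s ^ 2 * formMat B j j)|
      ≤ k * (k * (D * |s| ^ 3)) := by
    have e : (∑ i, ∑ l, (A i l - δ i l) * formMat B l i)
      - (s * (∑ i, ∑ l, third V i j l * formMat B l i) - s ^ 2 * formMat B j j)
      = ∑ i, ∑ l, ((A i l - δ i l) - (s * third V i j l - s ^ 2 * (δ i j * δ l j)))
          * formMat B l i := by
      simp only [sub_mul, mul_assoc, Finset.sum_sub_distrib, Finset.mul_sum]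
      simp [hδ, Matrix.one_apply]
    rw [e]
    refine (Finset.abs_sum_le_sum_abs _ _).trans ?_
    refine (Finset.sum_le_sum fun i _ => (Finset.abs_sum_le_sum_abs _ _).trans
      (Finset.sum_le_sum fun l _ => show _ ≤ D * |s| ^ 3 from ?_)).trans (le_of_eq (by simp))
    rw [abs_mul]
    exact (mul_le_mul (hD i l) (formMat_abs_le hV i l) (abs_nonneg _) (by positivity)).trans
      (mul_one _).le
  have hjj : |s ^ 2 * (A j j - 1)| ≤ (K + 1 + D) * |s| ^ 3 := by
    have h1 : |A j j - 1| ≤ |s| * (K + 1 + D) := by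
      have h := hD j j
      rw [Matrix.one_apply_eq, mul_one, mul_one] at h
      have h2 : |s * third V j j j| ≤ |s| * K := by
        rw [abs_mul]; exact mul_le_mul_of_nonneg_left (third_le hV hw j j j) hs0
      have h3 : s ^ 2 ≤ |s| := by rw [← sq_abs]; nlinarith
      have h4 : |s| ^ 3 ≤ |s| := pow_le_of_le_one hs0 (hsa.trans (by norm_num)) (by norm_num)
      have h5 := h.trans (mul_le_mul_of_nonneg_left h4 (by positivity))
      rw [abs_le]
      simp only [← hA] at h5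
      constructor <;> linarith [abs_le.1 h5, abs_le.1 h2, sq_nonneg s]
    rw [abs_mul, abs_of_nonneg (sq_nonneg s)]
    refine (mul_le_mul_of_nonneg_left h1 (sq_nonneg s)).trans (le_of_eq ?_)
    rw [← sq_abs]
    ring
  have hη2 := mul_le_mul_of_nonneg_left
    (show -((∑ i, ∑ l, (A i l - δ i l) * formMat B l i) + s ^ 2 * (A j j - 1))
      ≤ -(s * (∑ i, ∑ l, third V i j l * formMat B l i) - s ^ 2 * formMat B j j)
        + (k * (k * D) + (K + 1 + D)) * |s| ^ 3 by linarith [(abs_le.1 hlin).1, (abs_le.1 hjj).1])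
    (by linarith : (0 : ℝ) ≤ 1 + η)
  have hη3 : (1 + η) * ((k * (k * D) + (K + 1 + D)) * |s| ^ 3)
      ≤ 2 * ((k * (k * D) + (K + 1 + D)) * |s| ^ 3) :=
    mul_le_mul_of_nonneg_right (by linarith) (by positivity)
  have hconst := mul_le_mul_of_nonneg_right (const_le2 hk0 hK) (pow_nonneg hs0 3)
  rw [Phi, val, ← hA, child_trace]
  have hl := child_logdet hV hw hs j
  simp only [← hA] at hl
  simp only [hδ] at hη2
  simp only [← hDdef] at hconst
  linarith [child_ent hV hw hs' j,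
    show 0 ≤ (1000 * K) ^ 3 * ((k : ℝ) + 1) ^ 4 * 8 * |s| ^ 3 by positivity]

end Child

theorem step (hE : EnvelopeStmt) : StepStmt := by
  intro k
  obtain ⟨w, hwi, hw0, hw⟩ := exists_weight hE k
  set K := (∫ x, w x) + 1
  have hI : 0 ≤ ∫ x, w x := integral_nonneg hw0
  refine ⟨(2 * ((1000 * K) ^ 3 * ((k : ℝ) + 1) ^ 4 * 8)) * k + 1,
    1 / (1000000 * K * ((k : ℝ) + 1)),
    by positivity, by positivity, fun V B ε Λ η a hV hη hη1 ha hle => ?_⟩
  obtain ⟨hw1, hw2⟩ := hw V B ε Λ hV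
  have hs : |a| * (1000000 * K * ((k : ℝ) + 1)) ≤ 1 := by
    rwa [abs_of_pos ha, ← le_div_iff₀ (by positivity)]
  have hb := fun (j : Fin k) (s : ℝ) (h : |s| * (1000000 * K * ((k : ℝ) + 1)) ≤ 1) =>
    phi_child_le (w := w) (K := K) hV ⟨hwi, le_add_of_nonneg_right zero_le_one,
      le_add_of_nonneg_left hI, hw1, hw2⟩ hη hη1 h j
  set C := 2 * ((1000 * K) ^ 3 * ((k : ℝ) + 1) ^ 4 * 8)
  have hj : ∀ j : Fin k, (Phi η (childV V j a) (childB B j a)
      + Phi η (childV V j (-a)) (childB B j (-a))) / 2 ≤ val η V B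
      + a ^ 2 * ((∑ i, ∑ l, third V i j l ^ 2) / 4 + (1 + η) * (formMat B j j - 1))
      + C * a ^ 3 := by
    intro j
    have h1 := hb j a hs
    have h2 := hb j (-a) (by rwa [abs_neg])
    rw [abs_of_pos ha] at h1
    rw [neg_sq, abs_neg, abs_of_pos ha] at h2
    linarith
  refine (Finset.sum_le_sum fun j _ => hj j).trans ?_
  have ha3 : 0 < a ^ 3 := pow_pos ha 3
  have e : ∑ j, ((∑ i, ∑ l, third V i j l ^ 2) / 4 + (1 + η) * (formMat B j j - 1))
      = (∑ i, ∑ j, ∑ l, third V i j l ^ 2) / 4 - (1 + η) * ((k : ℝ) - trB B) := by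
    rw [Finset.sum_add_distrib, ← Finset.sum_div, Finset.sum_comm, ← Finset.mul_sum,
      Finset.sum_sub_distrib]
    simp [trB, formMat]
    ring
  rw [Finset.sum_add_distrib, Finset.sum_add_distrib, ← Finset.mul_sum, e]
  simp only [Finset.sum_const, Finset.card_univ, Fintype.card_fin, nsmul_eq_mul]
  linarith

end Vale.P254.Loc
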