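import Vale.Agent.P254.Loc.Defs
import Vale.Agent.P254.Skew.Gauss

/-!
# Nearly terminal states are nearly Gaussian

For a normalised state write `V = V 0 + b x + B x x / 2 + U` with `U` convex, `U 0 = 0`, `U ≥ 0`.
Integration by parts gives `E [x · ∇U] = k - tr B`, and a radial comparison on a large ball shows
that `V 0` is at least the logarithm of the Gaussian mass up to a multiple of `k - tr B`.
-/

namespace Vale.P254.Loc

open MeasureTheory Skew Filter Topology Metric

variable {k : ℕ} {V : E k → ℝ} {B : E k →L[ℝ] E k →L[ℝ] ℝ} {ε Λ : ℝ}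

/-- The linear part of the potential at the origin. -/
noncomputable def lin (V : E k → ℝ) : E k →L[ℝ] ℝ := fderiv ℝ V 0

/-- The exponent of the Gaussian part. -/
noncomputable def quadPart (V : E k → ℝ) (B : E k →L[ℝ] E k →L[ℝ] ℝ) (x : E k) : ℝ :=
  lin V x + B x x / 2

/-- The remainder of the potential. -/
noncomputable def rest (V : E k → ℝ) (B : E k →L[ℝ] E k →L[ℝ] ℝ) (x : E k) : ℝ :=
  V x - V 0 - quadPart V B x

/-- The radial derivative of the remainder. -/
noncomputable def restRad (V : E k → ℝ) (B : E k →L[ℝ] E k →L[ℝ] ℝ) (x : E k) : ℝ :=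
  fderiv ℝ V x x - lin V x - B x x

theorem rest_zero : rest V B 0 = 0 := by simp [rest, quadPart]

theorem eq_add_rest (x : E k) : V x = V 0 + quadPart V B x + rest V B x := by
  unfold rest; ring

theorem rest_supporting (hV : Hyp V B ε Λ) (z w : E k) :
    rest V B z + (fderiv ℝ V z w - lin V w - B z w) ≤ rest V B (z + w) := by
  have h := taylor_lower (hV.pin.hasDerivAt_line z w) (hV.pin.hasDerivAt_line2 z w w)
    (c := B w w) fun t => hV.Ble _ w
  simp only [zero_smul, add_zero, one_smul] at h
  have e : B (z + w) (z + w) = B z z + 2 * B z w + B w w := by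
    simp only [map_add, add_apply, hV.Bsymm w z]
    ring
  simp only [rest, quadPart]
  rw [e, map_add]
  linarith

theorem rest_nonneg (hV : Hyp V B ε Λ) (x : E k) : 0 ≤ rest V B x := by
  have h := rest_supporting hV 0 x
  simp only [rest_zero, zero_add, map_zero, zero_apply, sub_zero] at h
  change fderiv ℝ V 0 x - fderiv ℝ V 0 x ≤ _ at h
  linarith

theorem rest_le_restRad (hV : Hyp V B ε Λ) (x : E k) : rest V B x ≤ restRad V B x := by
  have h := rest_supporting hV x (-x)
  simp only [map_neg, add_neg_cancel, rest_zero] at h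
  simp only [restRad]
  linarith

theorem restRad_nonneg (hV : Hyp V B ε Λ) (x : E k) : 0 ≤ restRad V B x :=
  (rest_nonneg hV x).trans (rest_le_restRad hV x)

theorem rest_mid (hV : Hyp V B ε Λ) (y z : E k) :
    2 * rest V B y ≤ rest V B (y + z) + rest V B (y - z) := by
  have h1 := rest_supporting hV y z
  have h2 := rest_supporting hV y (-z)
  simp only [map_neg] at h2
  rw [sub_eq_add_neg]
  linarith

theorem tame_coord (i : Fin k) : Tame fun x : E k => x i :=
  tame_id.clm (EuclideanSpace.proj i : E k →L[ℝ] ℝ)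

theorem tame_lin (V : E k → ℝ) : Tame fun x => lin V x := tame_id.clm (lin V)

theorem tame_form (B : E k →L[ℝ] E k →L[ℝ] ℝ) : Tame fun x => B x x := tame_id.bilin B tame_id

theorem tame_pot (hV : Pinched V ε Λ) : Tame V := by
  refine Tame.of_bound hV.continuous
    (g := fun x => |V 0| + ‖lin V‖ * ‖x‖ + |Λ| / 2 * ‖x‖ ^ 2)
    (((Tame.const _).add (tame_id.norm.const_mul _)).add ((tame_id.norm.pow 2).const_mul _))
    fun x => ?_
  have h1 := hV.quad_lower x
  have h2 := hV.quad_upper x
  have h3 := abs_le.1 ((lin V).le_opNorm x)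
  have h4 : 0 ≤ ε / 2 * ‖x‖ ^ 2 := by have := hV.pos; positivity
  have h5 : Λ / 2 * ‖x‖ ^ 2 ≤ |Λ| / 2 * ‖x‖ ^ 2 :=
    mul_le_mul_of_nonneg_right (by linarith [le_abs_self Λ]) (sq_nonneg _)
  have h6 : 0 ≤ |Λ| / 2 * ‖x‖ ^ 2 := by positivity
  rw [show fderiv ℝ V 0 x = lin V x from rfl] at h1 h2
  rw [Real.norm_eq_abs, abs_le]
  constructor <;> linarith [le_abs_self (V 0), neg_abs_le (V 0)]

theorem tame_rest (hV : Hyp V B ε Λ) : Tame (rest V B) := by
  have h : Tame fun x => (V x - V 0) - (lin V x + (1 / 2 : ℝ) * B x x) :=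
    ((tame_pot hV.pin).sub (Tame.const _)).sub ((tame_lin V).add ((tame_form B).const_mul _))
  refine (show (fun x => (V x - V 0) - (lin V x + (1 / 2 : ℝ) * B x x)) = rest V B from ?_) ▸ h
  funext x
  simp only [rest, quadPart]
  ring

theorem tame_restRad (hV : Hyp V B ε Λ) : Tame (restRad V B) :=
  (((hV.pin.tame_fderiv.bilin (ContinuousLinearMap.id ℝ (E k →L[ℝ] ℝ)) tame_id).sub
    (tame_lin V)).sub (tame_form B) : _)

theorem inner_single (x : E k) (i : Fin k) : inner ℝ x (EuclideanSpace.single i (1 : ℝ)) = x i := by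
  simp [EuclideanSpace.inner_single_right]

theorem sum_coord_single (x : E k) : x = ∑ i, x i • EuclideanSpace.single i (1 : ℝ) := by
  conv_lhs => rw [← (EuclideanSpace.basisFun (Fin k) ℝ).sum_repr x]
  simp

theorem form_expand (B : E k →L[ℝ] E k →L[ℝ] ℝ) (x : E k) :
    B x x = ∑ i, ∑ j, x i * x j * B (EuclideanSpace.single i 1) (EuclideanSpace.single j 1) := by
  conv_lhs => rw [sum_coord_single x]
  simp only [map_sum, map_smul, FunLike.coe_sum, Finset.sum_apply, smul_apply, smul_eq_mul,
    Finset.mul_sum]
  rw [Finset.sum_comm]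
  exact Finset.sum_congr rfl fun i _ => Finset.sum_congr rfl fun j _ => by ring

theorem form_le (hsymm : ∀ v w, B v w = B w v) (hpos : ∀ w, 0 ≤ B w w) (x : E k) :
    B x x ≤ trB B * ‖x‖ ^ 2 := by
  set s : Fin k → E k := fun i => EuclideanSpace.single i 1 with hs
  have key : ∀ i j, 2 * (x i * x j * B (s i) (s j)) ≤
      x i ^ 2 * B (s j) (s j) + x j ^ 2 * B (s i) (s i) := fun i j => by
    have h := hpos (x j • s i - x i • s j)
    simp only [map_sub, map_smul, sub_apply, smul_apply,
      smul_eq_mul, hsymm (s j) (s i)] at h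
    nlinarith
  have h2 : 2 * B x x ≤ ∑ i, ∑ j, (x i ^ 2 * B (s j) (s j) + x j ^ 2 * B (s i) (s i)) := by
    rw [form_expand, Finset.mul_sum]
    refine Finset.sum_le_sum fun i _ => ?_
    rw [Finset.mul_sum]
    exact Finset.sum_le_sum fun j _ => key i j
  simp only [Finset.sum_add_distrib, ← Finset.mul_sum, ← Finset.sum_mul] at h2
  rw [EuclideanSpace.real_norm_sq_eq, trB]
  change _ ≤ (∑ i, B (s i) (s i)) * _
  linarith

theorem ex_lin (hV : Hyp V B ε Λ) : ex V (fun x => lin V x) = 0 := by
  have h : ∀ x : E k, lin V x = inner ℝ x ((InnerProductSpace.toDual ℝ (E k)).symm (lin V)) :=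
    fun x => by rw [real_inner_comm, InnerProductSpace.toDual_symm_apply]
  rw [ex_congr h]
  exact hV.mean _

theorem ex_form (hV : Hyp V B ε Λ) : ex V (fun x => B x x) = trB B := by
  rw [ex_congr (form_expand B), hV.pin.ex_sum _ fun i _ => Tame.sum _ fun j _ =>
    ((tame_coord i).mul (tame_coord j)).mul (Tame.const _)]
  refine Finset.sum_congr rfl fun i _ => ?_
  rw [hV.pin.ex_sum _ fun j _ => ((tame_coord i).mul (tame_coord j)).mul (Tame.const _),
    Finset.sum_eq_single i]
  · rw [ex_mul_const]
    have h := hV.cov (EuclideanSpace.single i 1) (EuclideanSpace.single i 1)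
    simp only [inner_single] at h
    simp [h]
  · intro j _ hj
    rw [ex_mul_const]
    have h := hV.cov (EuclideanSpace.single i 1) (EuclideanSpace.single j 1)
    simp only [inner_single] at h
    simp [h, hj.symm]
  · simp

theorem ex_radial (hV : Hyp V B ε Λ) : ex V (fun x => fderiv ℝ V x x) = (k : ℝ) := by
  have h : ∀ x : E k, fderiv ℝ V x x =
      ∑ i, x i * fderiv ℝ V x (EuclideanSpace.single i 1) := fun x => by
    conv_lhs => arg 2; rw [sum_coord_single x]
    simp
  rw [ex_congr h, hV.pin.ex_sum _ fun i _ => (tame_coord i).mul (hV.pin.tame_fderiv_apply _)]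
  have h1 : ∀ i : Fin k,
      ex V (fun x => x i * fderiv ℝ V x (EuclideanSpace.single i 1)) = 1 := fun i => by
    have hp : ∀ x : E k, fderiv ℝ (fun x : E k => x i) x (EuclideanSpace.single i 1) = 1 :=
      fun x => by
        rw [show (fun x : E k => x i) = (EuclideanSpace.proj i : E k →L[ℝ] ℝ) from rfl,
          ContinuousLinearMap.fderiv]
        simp
    have hc : ContDiff ℝ 1 fun x : E k => x i :=
      (EuclideanSpace.proj (𝕜 := ℝ) i : E k →L[ℝ] ℝ).contDiff
    rw [hV.pin.ibp hc (tame_coord i) _ (by simp only [hp]; exact Tame.const _)]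
    simp only [hp, hV.pin.ex_const]
  simp [h1]

theorem ex_restRad (hV : Hyp V B ε Λ) : ex V (restRad V B) = (k : ℝ) - trB B := by
  have t1 : Tame fun x => fderiv ℝ V x x :=
    hV.pin.tame_fderiv.bilin (ContinuousLinearMap.id ℝ (E k →L[ℝ] ℝ)) tame_id
  unfold restRad
  rw [hV.pin.ex_sub (t1.sub (tame_lin V)) (tame_form B), hV.pin.ex_sub t1 (tame_lin V),
    ex_radial hV, ex_lin hV, ex_form hV, sub_zero]

theorem ent_eq (hV : Hyp V B ε Λ) :
    ent V = V 0 + trB B / 2 + ex V (rest V B) := by
  have t1 : Tame (quadPart V B) := by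
    have h : Tame fun x => lin V x + (1 / 2 : ℝ) * B x x :=
      (tame_lin V).add ((tame_form B).const_mul _)
    refine (show (fun x => lin V x + (1 / 2 : ℝ) * B x x) = quadPart V B from ?_) ▸ h
    funext x; simp only [quadPart]; ring
  rw [ent, hV.mass, Real.log_one, add_zero]
  conv_lhs => rw [ex_congr (eq_add_rest (V := V) (B := B))]
  rw [hV.pin.ex_add ((Tame.const _).add t1) (tame_rest hV), hV.pin.ex_add (Tame.const _) t1,
    hV.pin.ex_const]
  congr 2
  have h : ∀ x, quadPart V B x = lin V x + (1 / 2 : ℝ) * B x x := fun x => by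
    simp only [quadPart]; ring
  rw [ex_congr h, hV.pin.ex_add (tame_lin V) ((tame_form B).const_mul _), ex_const_mul, ex_form hV,
    ex_lin hV]
  ring

theorem ex_eq_integral (hV : Hyp V B ε Λ) (f : E k → ℝ) :
    ex V f = ∫ x, Real.exp (-V x) * f x := by
  simp [ex, hV.mass]

/-- The remainder is small near the origin. -/
theorem rest_le_near (hV : Hyp V B ε Λ) {c r : ℝ} (hc : 0 < c) (hr : 0 < r)
    (hlow : ∀ x, ‖x‖ ≤ r → c ≤ Real.exp (-V x)) (y : E k) (hy : ‖y‖ ≤ r / 2) :
    rest V B y ≤ ((k : ℝ) - trB B) / (c * volume.real (closedBall (0 : E k) (r / 2))) := by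
  set S := closedBall (0 : E k) (r / 2) with hS
  set h : E k → ℝ := fun x => Real.exp (-V x) * rest V B x with hh
  have hint : Integrable h := hV.pin.integrable (tame_rest hV)
  have hpos : ∀ x, 0 ≤ h x := fun x => mul_nonneg (Real.exp_pos _).le (rest_nonneg hV x)
  have i1 : Integrable fun z => h (y + z) := hint.comp_add_left y
  have i2 : Integrable fun z => h (y - z) := hint.comp_sub_left y
  have hfin : volume S ≠ ⊤ := measure_closedBall_lt_top.ne
  have hle : ∫ _ in S, c * (2 * rest V B y) ≤ ∫ z in S, (h (y + z) + h (y - z)) := by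
    refine setIntegral_mono_on (integrableOn_const hfin) (i1.add i2).integrableOn
      measurableSet_closedBall fun z hz => ?_
    have hz' : ‖z‖ ≤ r / 2 := by simpa [hS] using hz
    have e1 := hlow (y + z) ((norm_add_le _ _).trans (by linarith))
    have e2 := hlow (y - z) ((norm_sub_le _ _).trans (by linarith))
    calc c * (2 * rest V B y) ≤ c * (rest V B (y + z) + rest V B (y - z)) :=
          mul_le_mul_of_nonneg_left (rest_mid hV y z) hc.le
      _ ≤ _ := by
        rw [mul_add]
        exact add_le_add (mul_le_mul_of_nonneg_right e1 (rest_nonneg hV _))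
          (mul_le_mul_of_nonneg_right e2 (rest_nonneg hV _))
  have hall : ∫ z in S, (h (y + z) + h (y - z)) ≤ 2 * ∫ x, h x := by
    refine (setIntegral_le_integral (i1.add i2)
      (Eventually.of_forall fun z => add_nonneg (hpos _) (hpos _))).trans (le_of_eq ?_)
    change ∫ z, (h (y + z) + h (y - z)) = _
    rw [integral_add i1 i2, integral_add_left_eq_self h y, integral_sub_left_eq_self h volume y]
    ring
  have he : ∫ x, h x ≤ (k : ℝ) - trB B := by
    rw [← ex_restRad hV, ← ex_eq_integral hV]
    exact hV.pin.ex_mono (tame_rest hV) (tame_restRad hV) (rest_le_restRad hV)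
  rw [setIntegral_const, smul_eq_mul] at hle
  have hvol : 0 < volume.real S := ENNReal.toReal_pos
    (measure_closedBall_pos volume _ (by linarith)).ne' hfin
  rw [le_div_iff₀ (mul_pos hc hvol)]
  nlinarith

/-- The standard Gaussian mass of a ball. -/
noncomputable def gaussBall (k : ℕ) (M : ℝ) : ℝ :=
  ∫ x in closedBall (0 : E k) M, Real.exp (-(‖x‖ ^ 2 / 2))

theorem tendsto_gaussBall (k : ℕ) :
    Tendsto (fun n : ℕ => gaussBall k (n + 1)) atTop
      (𝓝 ((2 * Real.pi) ^ ((k : ℝ) / 2))) := by
  have he : (fun x : E k => Real.exp (-(‖x‖ ^ 2 / 2))) =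
      fun x : E k => Real.exp (-(1 / 2) * ‖x‖ ^ 2) := by funext x; ring_nf
  have hint : Integrable fun x : E k => Real.exp (-(‖x‖ ^ 2 / 2)) := by
    rw [he]; exact integrable_gauss (by norm_num)
  have hU : (⋃ n : ℕ, closedBall (0 : E k) ((n : ℝ) + 1)) = Set.univ :=
    Set.eq_univ_of_forall fun x => by
      obtain ⟨n, hn⟩ := exists_nat_ge ‖x‖
      exact Set.mem_iUnion.2 ⟨n, by rw [mem_closedBall_zero_iff]; linarith⟩
  have h := tendsto_setIntegral_of_monotone (μ := volume)
    (f := fun x : E k => Real.exp (-(‖x‖ ^ 2 / 2)))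
    (s := fun n : ℕ => closedBall (0 : E k) ((n : ℝ) + 1)) (fun n => measurableSet_closedBall)
    (fun m n hmn => closedBall_subset_closedBall (by simpa using hmn)) hint.integrableOn
  rw [hU, setIntegral_univ] at h
  refine (congrArg (fun v => Tendsto _ atTop (𝓝 v)) ?_).mp h
  rw [he, GaussianFourier.integral_rexp_neg_mul_sq_norm (by norm_num : (0 : ℝ) < 1 / 2)]
  congr 1
  · ring
  · simp

/-- An isometry preserves a Gaussian integral on a ball. -/
theorem ball_isometry (L : E k ≃ₗᵢ[ℝ] E k) (M : ℝ) (f : E k → ℝ) :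
    ∫ x in closedBall (0 : E k) M, Real.exp (-(‖x‖ ^ 2 / 2)) * f (L x) =
      ∫ x in closedBall (0 : E k) M, Real.exp (-(‖x‖ ^ 2 / 2)) * f x := by
  have h := (L.measurePreserving).setIntegral_preimage_emb L.toHomeomorph.measurableEmbedding
    (fun x => Real.exp (-(‖x‖ ^ 2 / 2)) * f x) (closedBall (0 : E k) M)
  simp only [LinearIsometryEquiv.preimage_closedBall, map_zero, LinearIsometryEquiv.norm_map] at h
  exact h

/-- Gaussian masses dominate: the symmetric comparison on a ball. -/
theorem gaussBall_le (hV : Hyp V B ε Λ) (he : 0 ≤ (k : ℝ) - trB B) (M : ℝ) :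
    gaussBall k M ≤ ∫ x in closedBall (0 : E k) M, Real.exp (-quadPart V B x) := by
  set S := closedBall (0 : E k) M
  set g : E k → ℝ := fun x => Real.exp (-(‖x‖ ^ 2 / 2)) with hg
  have hK : IsCompact S := isCompact_closedBall _ _
  have hio : ∀ {f : E k → ℝ}, Continuous f → IntegrableOn f S := fun hf =>
    hf.continuousOn.integrableOn_compact hK
  have cg : Continuous g := by fun_prop
  set m : Fin k → Fin k → ℝ := fun i j => ∫ x in S, g x * (x i * x j) with hm
  -- off-diagonal moments vanish, the diagonal ones agree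
  have hoff : ∀ i j, i ≠ j → m i j = 0 := by
    intro i j hij
    let L : E k ≃ₗᵢ[ℝ] E k := LinearIsometryEquiv.piLpCongrRight 2 fun l =>
      if l = i then LinearIsometryEquiv.neg ℝ else LinearIsometryEquiv.refl ℝ ℝ
    have h := ball_isometry L M fun x => x i * x j
    have h' : ∀ x : E k, (L x) i * (L x) j = -(x i * x j) := fun x => by
      simp [L, hij.symm]
    simp only [h', mul_neg, integral_neg] at h
    change -m i j = m i j at h
    linarith
  have hdiag : ∀ i j, m i i = m j j := by
    intro i j
    let L : E k ≃ₗᵢ[ℝ] E k :=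
      LinearIsometryEquiv.piLpCongrLeft 2 ℝ ℝ (Equiv.swap i j)
    have h := ball_isometry L M fun x => x i * x i
    have h' : ∀ x : E k, (L x) i = x j := fun x => by simp [L]
    simp only [h'] at h
    exact h.symm
  have hquad : ∀ C : E k →L[ℝ] E k →L[ℝ] ℝ, ∫ x in S, g x * C x x =
      ∑ i, m i i * C (EuclideanSpace.single i 1) (EuclideanSpace.single i 1) := fun C => by
    have hc : ∀ i j : Fin k, Continuous fun x : E k => g x * (x i * x j) := fun i j => by fun_prop
    have hI : ∀ i j : Fin k, Integrable (fun x : E k => g x * (x i * x j) *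
        C (EuclideanSpace.single i 1) (EuclideanSpace.single j 1)) (volume.restrict S) :=
      fun i j => (hio (hc i j)).mul_const _
    rw [show (fun x => g x * C x x) = fun x => ∑ i, ∑ j,
        g x * (x i * x j) * C (EuclideanSpace.single i 1) (EuclideanSpace.single j 1) from
      funext fun x => by simp only [form_expand C x, Finset.mul_sum, mul_assoc],
      integral_finsetSum _ fun i _ => integrable_finsetSum _ fun j _ => hI i j]
    refine Finset.sum_congr rfl fun i _ => ?_
    rw [integral_finsetSum _ fun j _ => hI i j, Finset.sum_eq_single i]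
    · rw [integral_mul_const]
    · intro j _ hj
      rw [integral_mul_const]
      simp [show (∫ x in S, g x * (x i * x j)) = m i j from rfl, hoff i j hj.symm]
    · simp
  have hlin : ∫ x in S, g x * lin V x = 0 := by
    have h := ball_isometry (LinearIsometryEquiv.neg ℝ : E k ≃ₗᵢ[ℝ] E k) M fun x => lin V x
    simp only [LinearIsometryEquiv.coe_neg, map_neg, mul_neg, integral_neg] at h
    change -(∫ x in S, g x * lin V x) = ∫ x in S, g x * lin V x at h
    linarith
  have hnorm : 0 ≤ ∫ x in S, g x * (‖x‖ ^ 2 - B x x) := by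
    have cB : Continuous fun x : E k => g x * B x x := cg.mul (tame_form B).1
    simp only [mul_sub]
    have cN : Continuous fun x : E k => g x * ‖x‖ ^ 2 := cg.mul (continuous_norm.pow 2)
    rw [integral_sub (hio cN) (hio cB), hquad B]
    have h2 := hquad (innerSL ℝ)
    change (∫ x in S, g x * inner ℝ x x) = ∑ i, m i i *
      inner ℝ (EuclideanSpace.single i (1 : ℝ)) (EuclideanSpace.single i (1 : ℝ)) at h2
    simp only [real_inner_self_eq_norm_sq, PiLp.norm_single, norm_one, one_pow, mul_one] at h2
    rw [h2]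
    rcases Nat.eq_zero_or_pos k with rfl | hk
    · simp
    · set i0 : Fin k := ⟨0, hk⟩
      have hm0 : 0 ≤ m i0 i0 := setIntegral_nonneg measurableSet_closedBall fun x _ =>
        mul_nonneg (Real.exp_pos _).le (mul_self_nonneg _)
      simp only [fun i => hdiag i i0, ← Finset.mul_sum, Finset.sum_const, Finset.card_univ,
        Fintype.card_fin, nsmul_eq_mul]
      have := mul_nonneg hm0 he
      unfold trB at this
      linarith
  have cq : Continuous (quadPart V B) := (lin V).continuous.add ((tame_form B).1.div_const 2)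
  have hpt : ∀ x, g x * (1 + ((1 / 2 : ℝ) * (‖x‖ ^ 2 - B x x) - lin V x)) ≤
      Real.exp (-quadPart V B x) := fun x => by
    have e : -quadPart V B x =
        -(‖x‖ ^ 2 / 2) + ((1 / 2 : ℝ) * (‖x‖ ^ 2 - B x x) - lin V x) := by
      simp only [quadPart]; ring
    rw [e, Real.exp_add]
    refine mul_le_mul_of_nonneg_left ?_ (Real.exp_pos _).le
    linarith [Real.add_one_le_exp ((1 / 2 : ℝ) * (‖x‖ ^ 2 - B x x) - lin V x)]
  have cD : Continuous fun x : E k => ‖x‖ ^ 2 - B x x :=
    (continuous_norm.pow 2).sub (tame_form B).1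
  have heq : ∫ x in S, g x * (1 + ((1 / 2 : ℝ) * (‖x‖ ^ 2 - B x x) - lin V x)) =
      gaussBall k M + (1 / 2) * (∫ x in S, g x * (‖x‖ ^ 2 - B x x)) -
        ∫ x in S, g x * lin V x := by
    rw [show (fun x => g x * (1 + ((1 / 2 : ℝ) * (‖x‖ ^ 2 - B x x) - lin V x))) = fun x =>
      g x + (1 / 2) * (g x * (‖x‖ ^ 2 - B x x)) - g x * lin V x from funext fun x => by ring]
    have i1 : Integrable (fun x : E k => g x * (‖x‖ ^ 2 - B x x)) (volume.restrict S) :=
      hio (cg.mul cD)
    have i2 : Integrable (fun x : E k => g x * lin V x) (volume.restrict S) :=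
      hio (cg.mul (lin V).continuous)
    have i3 : Integrable (fun x : E k => g x + 1 / 2 * (g x * (‖x‖ ^ 2 - B x x)))
        (volume.restrict S) := (hio cg).add (i1.const_mul _)
    rw [integral_sub i3 i2, integral_add (hio cg) (i1.const_mul _), integral_const_mul]
    rfl
  have := setIntegral_mono_on (hio (cg.mul (continuous_const.add
    ((continuous_const.mul cD).sub (lin V).continuous)))) (hio cq.neg.rexp)
    measurableSet_closedBall fun x _ => hpt x
  change ∫ x in S, g x * (1 + ((1 / 2 : ℝ) * (‖x‖ ^ 2 - B x x) - lin V x)) ≤ _ at this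
  rw [heq, hlin] at this
  simp only [Pi.neg_apply] at this
  linarith

/-- The radial comparison on a ball. -/
theorem ball_le_mass (hV : Hyp V B ε Λ) {M β l : ℝ} (hl : 0 < l) (hl1 : l ≤ 1)
    (hβ : ∀ x, |lin V x| ≤ β * ‖x‖) (hβ0 : 0 ≤ β) :
    ∫ x in closedBall (0 : E k) M, Real.exp (-(quadPart V B x + rest V B (l • x))) ≤
      Real.exp (V 0) * (1 + Real.exp (2 * β * M + trB B * M ^ 2 / 2) / l ^ (k + 1) *
        ((k : ℝ) - trB B)) := by
  set S := closedBall (0 : E k) M
  set e := (k : ℝ) - trB B with he
  set K := Real.exp (2 * β * M + trB B * M ^ 2 / 2) with hK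
  have hC : IsCompact S := isCompact_closedBall _ _
  set ψ : ℝ → E k → ℝ := fun t x => Real.exp (-(quadPart V B x + rest V B (t • x))) *
    (fderiv ℝ V (t • x) x - lin V x - t * B x x) with hψ
  have cq : Continuous (quadPart V B) := (lin V).continuous.add ((tame_form B).1.div_const 2)
  have cψ : Continuous (Function.uncurry ψ) := by
    have c1 : Continuous fun p : ℝ × E k => p.1 • p.2 := continuous_fst.smul continuous_snd
    exact ((cq.comp continuous_snd).add ((tame_rest hV).1.comp c1)).neg.rexp.mul
      ((((hV.pin.contDiff_fderiv.continuous.comp c1).clm_apply continuous_snd).sub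
        ((lin V).continuous.comp continuous_snd)).sub
          (continuous_fst.mul ((tame_form B).1.comp continuous_snd)))
  have hderiv : ∀ x t, HasDerivAt
      (fun t => -Real.exp (-(quadPart V B x + rest V B (t • x)))) (ψ t x) t := by
    intro x t
    have h1 : HasDerivAt (fun t : ℝ => V (t • x)) (fderiv ℝ V (t • x) x) t := by
      simpa using hV.pin.hasDerivAt_line 0 x t
    have h2 : HasDerivAt (fun t : ℝ => rest V B (t • x))
        (fderiv ℝ V (t • x) x - lin V x - t * B x x) t := by
      have h3 : (fun t : ℝ => rest V B (t • x)) =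
          fun t => (V (t • x) - V 0) - (t * lin V x + t ^ 2 * (B x x / 2)) := funext fun s => by
        simp [rest, quadPart]; ring
      rw [h3]
      exact ((h1.sub_const (V 0)).sub (((hasDerivAt_id t).mul_const (lin V x)).add
        ((hasDerivAt_pow 2 t).mul_const _))).congr_deriv (by push_cast; simp; ring)
    refine ((h2.const_add (quadPart V B x)).fun_neg.exp.fun_neg).congr_deriv ?_
    simp [hψ]
    ring
  have hftc : ∀ x, ∫ t in l..1, ψ t x =
      Real.exp (-(quadPart V B x + rest V B (l • x))) -
        Real.exp (-(quadPart V B x + rest V B x)) := fun x => by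
    rw [intervalIntegral.integral_eq_sub_of_hasDerivAt (fun t _ => hderiv x t)
      ((cψ.comp (continuous_id.prodMk continuous_const)).intervalIntegrable _ _), one_smul]
    ring
  have hprod : Integrable (Function.uncurry ψ)
      ((volume.restrict (Set.uIoc l 1)).prod (volume.restrict S)) := by
    rw [Measure.prod_restrict]
    exact (cψ.continuousOn.integrableOn_compact (isCompact_uIcc.prod hC)).mono_set
      (Set.prod_mono Set.uIoc_subset_uIcc subset_rfl)
  have hswap := intervalIntegral_integral_swap (μ := volume.restrict S) hprod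
  have hslice : ∀ t ∈ Set.Icc l 1, ∫ x in S, ψ t x ≤ Real.exp (V 0) * (K / l ^ (k + 1) * e) := by
    intro t ht
    have ht0 : 0 < t := hl.trans_le ht.1
    set h : E k → ℝ := fun y => Real.exp (-V y) * restRad V B y with hh
    have hh0 : ∀ y, 0 ≤ h y := fun y => mul_nonneg (Real.exp_pos _).le (restRad_nonneg hV y)
    have hhi : Integrable h := hV.pin.integrable (tame_restRad hV)
    have hhs : Integrable fun x => h (t • x) := hhi.comp_smul ht0.ne'
    have hb : ∀ x ∈ S, ψ t x ≤ Real.exp (V 0) * (K / t) * h (t • x) := by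
      intro x hx
      have hx' : ‖x‖ ≤ M := by simpa [S] using hx
      have hsplit : fderiv ℝ V (t • x) x - lin V x - t * B x x = restRad V B (t • x) / t := by
        simp only [restRad, map_smul, smul_apply, smul_eq_mul]
        field_simp
      have hexp : -(quadPart V B x + rest V B (t • x)) ≤
          V 0 + (2 * β * M + trB B * M ^ 2 / 2) + -V (t • x) := by
        rw [eq_add_rest (V := V) (B := B) (t • x)]
        simp only [quadPart, map_smul, smul_apply, smul_eq_mul]
        have b1 := abs_le.1 ((hβ x).trans (mul_le_mul_of_nonneg_left hx' hβ0))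
        have b2 : t * (t * B x x) ≤ trB B * M ^ 2 := by
          have q1 : t * (t * B x x) ≤ 1 * (1 * B x x) :=
            mul_le_mul ht.2 (mul_le_mul_of_nonneg_right ht.2 (hV.Bnonneg x))
              (mul_nonneg ht0.le (hV.Bnonneg x)) zero_le_one
          have q2 := form_le hV.Bsymm hV.Bnonneg x
          have q3 : trB B * ‖x‖ ^ 2 ≤ trB B * M ^ 2 := mul_le_mul_of_nonneg_left
            (pow_le_pow_left₀ (norm_nonneg x) hx' 2) (Finset.sum_nonneg fun i _ => hV.Bnonneg _)
          linarith
        have b3 : t * lin V x ≤ β * M := by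
          rcases le_total 0 (lin V x) with h0 | h0
          · have := mul_le_mul_of_nonneg_right ht.2 h0
            linarith
          · have := mul_nonpos_of_nonneg_of_nonpos ht0.le h0
            linarith
        linarith [hV.Bnonneg x]
      calc ψ t x = Real.exp (-(quadPart V B x + rest V B (t • x))) * (restRad V B (t • x) / t) := by
            simp only [hψ, hsplit]
        _ ≤ Real.exp (V 0 + (2 * β * M + trB B * M ^ 2 / 2) + -V (t • x)) *
              (restRad V B (t • x) / t) :=
            mul_le_mul_of_nonneg_right (Real.exp_le_exp.2 hexp)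
              (div_nonneg (restRad_nonneg hV _) ht0.le)
        _ = _ := by rw [Real.exp_add, Real.exp_add, hh, hK]; ring
    calc ∫ x in S, ψ t x ≤ ∫ x in S, Real.exp (V 0) * (K / t) * h (t • x) :=
          setIntegral_mono_on ((cψ.comp (continuous_const.prodMk continuous_id)).continuousOn
            |>.integrableOn_compact hC) (hhs.const_mul _).integrableOn measurableSet_closedBall hb
      _ ≤ ∫ x, Real.exp (V 0) * (K / t) * h (t • x) :=
          setIntegral_le_integral (hhs.const_mul _) (Eventually.of_forall fun x =>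
            mul_nonneg (mul_nonneg (Real.exp_pos _).le (div_nonneg (Real.exp_pos _).le ht0.le))
              (hh0 _))
      _ = Real.exp (V 0) * (K / t) * ((t ^ k)⁻¹ * e) := by
          rw [integral_const_mul, Measure.integral_comp_smul, finrank_euclideanSpace_fin,
            smul_eq_mul, abs_of_nonneg (by positivity)]
          rw [show (∫ y, h y) = e from (ex_eq_integral hV _).symm.trans (ex_restRad hV)]
      _ ≤ _ := by
          have he0 : 0 ≤ e := by rw [he, ← ex_restRad hV]; exact hV.pin.ex_nonneg (restRad_nonneg hV)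
          rw [mul_assoc]
          refine mul_le_mul_of_nonneg_left ?_ (Real.exp_pos _).le
          calc K / t * ((t ^ k)⁻¹ * e) = K / t ^ (k + 1) * e := by rw [pow_succ]; field_simp
            _ ≤ _ := mul_le_mul_of_nonneg_right (div_le_div_of_nonneg_left (Real.exp_pos _).le
                (pow_pos hl _) (pow_le_pow_left₀ hl.le ht.1 _)) he0
  have hbound : ∫ t in l..1, ∫ x in S, ψ t x ≤ Real.exp (V 0) * (K / l ^ (k + 1) * e) := by
    refine (intervalIntegral.integral_mono_on hl1 ?_ intervalIntegrable_const hslice).trans ?_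
    · exact (intervalIntegrable_iff.2 hprod.integral_prod_left)
    · rw [intervalIntegral.integral_const, smul_eq_mul]
      have he0 : 0 ≤ e := by rw [he, ← ex_restRad hV]; exact hV.pin.ex_nonneg (restRad_nonneg hV)
      have : 0 ≤ Real.exp (V 0) * (K / l ^ (k + 1) * e) := by positivity
      nlinarith
  rw [hswap] at hbound
  simp only [hftc] at hbound
  have c0 : ∀ t : ℝ, Continuous fun x => Real.exp (-(quadPart V B x + rest V B (t • x))) := fun t =>
    (cq.add ((tame_rest hV).1.comp (continuous_const_smul t))).neg.rexp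
  have c1 : Continuous fun x => Real.exp (-(quadPart V B x + rest V B x)) :=
    (cq.add (tame_rest hV).1).neg.rexp
  rw [integral_sub ((c0 l).continuousOn.integrableOn_compact hC)
    (c1.continuousOn.integrableOn_compact hC)] at hbound
  have hmass : ∫ x in S, Real.exp (-(quadPart V B x + rest V B x)) ≤ Real.exp (V 0) := by
    have e1 : (fun x => Real.exp (-(quadPart V B x + rest V B x))) =
        fun x => Real.exp (V 0) * Real.exp (-V x) := funext fun x => by
      rw [← Real.exp_add, eq_add_rest (V := V) (B := B) x]; ring_nf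
    rw [e1]
    refine (setIntegral_le_integral (hV.pin.integrable_exp.const_mul _)
      (Eventually.of_forall fun x => by positivity)).trans (le_of_eq ?_)
    rw [integral_const_mul, show (∫ x, Real.exp (-V x)) = Zc V from rfl, hV.mass, mul_one]
  linarith

/-- Nearly terminal states are nearly Gaussian. -/
theorem terminal_stmt (hE : EnvelopeStmt) : TerminalStmt := by
  intro k δ hδ
  obtain ⟨C, R, r, c, hC, hR, hr, hc, henv⟩ := hE k
  set a := (2 * Real.pi) ^ ((k : ℝ) / 2) with ha
  have ha0 : 0 < a := Real.rpow_pos_of_pos (by positivity) _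
  obtain ⟨n, hn⟩ := ((tendsto_gaussBall k).eventually
    (lt_mem_nhds (show a * Real.exp (-(δ / 2)) < a from
      mul_lt_of_lt_one_right ha0 (Real.exp_lt_one_iff.2 (by linarith))))).exists
  set M : ℝ := (n : ℝ) + 1 with hMdef
  have hM : 0 < M := by positivity
  set L := |Real.log C| + |Real.log c| with hL
  set β := L / r with hβdef
  set l := min 1 (r / (2 * M)) with hldef
  have hl : 0 < l := lt_min one_pos (by positivity)
  set A := 1 / (c * volume.real (closedBall (0 : E k) (r / 2))) with hA
  have hvol : 0 < volume.real (closedBall (0 : E k) (r / 2)) := ENNReal.toReal_pos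
    (measure_closedBall_pos volume _ (by linarith)).ne' measure_closedBall_lt_top.ne
  set D := Real.exp (2 * β * M + k * M ^ 2 / 2) / l ^ (k + 1) with hD
  set T := A + D + 1 with hT
  have hT0 : 0 < T := by positivity
  refine ⟨δ / (2 * T), by positivity, fun V B ε Λ hV he hσ => ?_⟩
  obtain ⟨hup, hlow⟩ := henv V B ε Λ hV
  set e := (k : ℝ) - trB B with hedef
  have hβ0 : 0 ≤ β := by positivity
  have hVlo : ∀ x, -Real.log C ≤ V x := fun x => by
    have h1 : Real.exp (-V x) ≤ C := (hup x).trans (mul_le_of_le_one_right hC.le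
      (Real.exp_le_one_iff.2 (by simpa using div_nonneg (norm_nonneg x) hR.le)))
    have := (Real.le_log_iff_exp_le hC).2 h1
    linarith
  have hVhi : ∀ x, ‖x‖ ≤ r → V x ≤ -Real.log c := fun x hx => by
    have := Real.log_le_log hc (hlow x hx)
    rw [Real.log_exp] at this
    linarith
  have hdir : ∀ z, ‖z‖ ≤ r → lin V z ≤ L := fun z hz => by
    have h1 := hV.pin.quad_lower z
    have h2 : 0 ≤ ε / 2 * ‖z‖ ^ 2 := by have := hV.pin.pos; positivity
    rw [show fderiv ℝ V 0 z = lin V z from rfl] at h1
    linarith [hVlo 0, hVhi z hz, le_abs_self (Real.log C), neg_abs_le (Real.log c)]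
  have hβ : ∀ x, |lin V x| ≤ β * ‖x‖ := fun x => by
    rcases eq_or_ne x 0 with rfl | hx
    · simp
    have hx0 : 0 < ‖x‖ := norm_pos_iff.2 hx
    have hz : ‖(r / ‖x‖) • x‖ = r := by
      rw [norm_smul, Real.norm_eq_abs, abs_of_pos (by positivity)]; field_simp
    have p := hdir _ hz.le
    have q := hdir (-((r / ‖x‖) • x)) (by rw [norm_neg, hz])
    rw [map_smul, smul_eq_mul] at p
    rw [map_neg, map_smul, smul_eq_mul] at q
    have key : |lin V x| * (r / ‖x‖) ≤ L := by
      rw [← abs_of_pos (show 0 < r / ‖x‖ by positivity), ← abs_mul, abs_le]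
      constructor <;> linarith
    calc |lin V x| = |lin V x| * (r / ‖x‖) * (‖x‖ / r) := by field_simp
      _ ≤ L * (‖x‖ / r) := mul_le_mul_of_nonneg_right key (by positivity)
      _ = β * ‖x‖ := by rw [hβdef]; ring
  have hsmall : ∀ x ∈ closedBall (0 : E k) M, rest V B (l • x) ≤ A * e := fun x hx => by
    have hx' : ‖x‖ ≤ M := by simpa using hx
    refine (rest_le_near hV hc hr hlow _ ?_).trans (le_of_eq (by rw [hA]; ring))
    rw [norm_smul, Real.norm_eq_abs, abs_of_pos hl]
    calc l * ‖x‖ ≤ r / (2 * M) * M :=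
          mul_le_mul (min_le_right _ _) hx' (norm_nonneg _) (by positivity)
      _ = r / 2 := by field_simp
  have cq : Continuous (quadPart V B) := (lin V).continuous.add ((tame_form B).1.div_const 2)
  have hC' : IsCompact (closedBall (0 : E k) M) := isCompact_closedBall _ _
  have h1 : Real.exp (-(A * e)) * gaussBall k M ≤
      Real.exp (V 0) * (1 + D * e) := by
    refine le_trans (mul_le_mul_of_nonneg_left (gaussBall_le hV he M) (Real.exp_pos _).le) ?_
    rw [← integral_const_mul]
    refine le_trans (setIntegral_mono_on ((continuous_const.mul cq.neg.rexp).continuousOn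
      |>.integrableOn_compact hC') ((cq.add ((tame_rest hV).1.comp
        (continuous_const_smul l))).neg.rexp.continuousOn.integrableOn_compact hC')
      measurableSet_closedBall fun x hx => ?_) ((ball_le_mass hV hl (min_le_left _ _) hβ hβ0).trans ?_)
    · rw [← Real.exp_add]
      refine Real.exp_le_exp.2 ?_
      simp only [Pi.neg_apply, Pi.add_apply, Function.comp_apply]
      linarith [hsmall x hx]
    · refine mul_le_mul_of_nonneg_left ?_ (Real.exp_pos _).le
      have hmono : Real.exp (2 * β * M + trB B * M ^ 2 / 2) ≤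
          Real.exp (2 * β * M + k * M ^ 2 / 2) := by
        refine Real.exp_le_exp.2 ?_
        nlinarith [mul_nonneg he (sq_nonneg M)]
      have hdiv : Real.exp (2 * β * M + trB B * M ^ 2 / 2) / l ^ (k + 1) ≤ D :=
        div_le_div_of_nonneg_right hmono (pow_pos hl _).le
      linarith [mul_le_mul_of_nonneg_right hdiv he]
  have hg0 : 0 < gaussBall k M := lt_trans (mul_pos ha0 (Real.exp_pos _)) hn
  have hD0 : 0 ≤ D := by positivity
  have h2 := Real.log_le_log (mul_pos (Real.exp_pos _) hg0) h1
  rw [Real.log_mul (Real.exp_pos _).ne' hg0.ne', Real.log_exp,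
    Real.log_mul (Real.exp_pos _).ne' (by positivity), Real.log_exp] at h2
  have h3 : Real.log (1 + D * e) ≤ D * e := by
    have := Real.log_le_sub_one_of_pos (show 0 < 1 + D * e by positivity)
    linarith
  have h4 := Real.log_le_log (mul_pos ha0 (Real.exp_pos _)) hn.le
  rw [Real.log_mul ha0.ne' (Real.exp_pos _).ne', Real.log_exp, ha,
    Real.log_rpow (by positivity)] at h4
  have h5 : T * e ≤ δ / 2 := by
    have := mul_le_mul_of_nonneg_left hσ hT0.le
    calc T * e ≤ T * (δ / (2 * T)) := this
      _ = δ / 2 := by field_simp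
  have h6 : 0 ≤ ex V (rest V B) := hV.pin.ex_nonneg (rest_nonneg hV)
  rw [ent_eq hV, gaussEnt]
  rw [hT] at h5
  linarith

end Vale.P254.Loc
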