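import Vale.Agent.P254.Loc.Body
import Vale.Agent.P254.Loc.Envelope
import Vale.Agent.P254.Loc.Main
import Vale.Agent.P254.Loc.Step
import Vale.Agent.P254.Loc.Terminal

/-!
# The bound `L_K ≤ √(e/(2π))` from the skewness bound
-/

namespace Vale.P254.Loc

theorem isoConst_le_of_skew (hS : Skew.SkewStmt) {k : ℕ} (hk : 1 ≤ k) {K : Set (Fin k → ℝ)}
    (hc : IsCompact K) (hK : Convex ℝ K) (hi : (interior K).Nonempty) :
    isoConst K ≤ Real.sqrt (Real.exp 1 / (2 * Real.pi)) :=
  isoConst_le (entropy_stmt hS envelope normalise (step envelope) (terminal_stmt envelope))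
    body_stmt hk hc hK hi

end Vale.P254.Loc
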