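import Vale.Agent.P254.Loc.Defs

/-!
# Smooth approximation of the uniform law on a convex body

Finitely many scaled soft-plus functions of a dense family of supporting half-spaces, plus a small
multiple of the square norm.
-/

namespace Vale.P254.Loc

open MeasureTheory Skew Filter Topology
open scoped Matrix

variable {k : ℕ}

/-- The soft positive part. -/
noncomputable def softPos (t : ℝ) : ℝ := Real.log (1 + Real.exp t)

/-- Its derivative. -/
noncomputable def softPos' (t : ℝ) : ℝ := Real.exp t / (1 + Real.exp t)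

lemma softPos_nonneg (t : ℝ) : 0 ≤ softPos t :=
  Real.log_nonneg (by linarith [Real.exp_pos t])

lemma le_softPos (t : ℝ) : t ≤ softPos t :=
  (Real.le_log_iff_exp_le (by positivity)).2 (by linarith [Real.exp_pos t])

lemma softPos_le_log_two {t : ℝ} (ht : t ≤ 0) : softPos t ≤ Real.log 2 := by
  refine Real.log_le_log (by positivity) ?_
  linarith [Real.exp_le_one_iff.2 ht]

lemma hasDerivAt_softPos (t : ℝ) : HasDerivAt softPos (softPos' t) t :=
  ((Real.hasDerivAt_exp t).const_add 1).log (by positivity)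

lemma hasDerivAt_softPos' (t : ℝ) :
    HasDerivAt softPos' (Real.exp t / (1 + Real.exp t) ^ 2) t := by
  refine ((Real.hasDerivAt_exp t).fun_div ((Real.hasDerivAt_exp t).const_add 1)
    (by positivity)).congr_deriv ?_
  ring

lemma softPos''_le (t : ℝ) : Real.exp t / (1 + Real.exp t) ^ 2 ≤ 1 := by
  rw [div_le_one (by positivity)]
  nlinarith [Real.exp_pos t, sq_nonneg (Real.exp t)]

lemma contDiff_softPos : ContDiff ℝ 2 softPos :=
  (contDiff_const.add Real.contDiff_exp).log fun t => (add_pos one_pos (Real.exp_pos t)).ne'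

section potential

variable {ι : Type} [Fintype ι]

/-- A sum of soft positive parts of affine functions, plus a square. -/
noncomputable def pot (L : ι → E k →L[ℝ] ℝ) (b : ι → ℝ) (c s τ : ℝ) (x : E k) : ℝ :=
  (∑ i, c * softPos (s * (L i x - b i))) + τ * ‖x‖ ^ 2

lemma contDiff_pot (L : ι → E k →L[ℝ] ℝ) (b : ι → ℝ) (c s τ : ℝ) :
    ContDiff ℝ 2 (pot L b c s τ) :=
  (ContDiff.sum fun i _ => contDiff_const.mul
    (contDiff_softPos.comp (contDiff_const.mul ((L i).contDiff.sub contDiff_const)))).add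
    (contDiff_const.mul (contDiff_norm_sq ℝ))

lemma hasFDerivAt_pot (L : ι → E k →L[ℝ] ℝ) (b : ι → ℝ) (c s τ : ℝ) (x : E k) :
    HasFDerivAt (pot L b c s τ)
      ((∑ i, (c * s * softPos' (s * (L i x - b i))) • L i) + (2 * τ) • innerSL ℝ x) x := by
  have h1 : ∀ i, HasFDerivAt (fun y => c * softPos (s * (L i y - b i)))
      ((c * s * softPos' (s * (L i x - b i))) • L i) x := fun i => by
    have h := ((hasDerivAt_softPos (s * (L i x - b i))).comp_hasFDerivAt x
      (((L i).hasFDerivAt.sub_const (b i)).const_mul s)).const_mul c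
    refine h.congr_fderiv ?_
    ext y
    simp
    ring
  have h2 : HasFDerivAt (fun y : E k => τ * ‖y‖ ^ 2) ((2 * τ) • innerSL ℝ x) x := by
    refine ((hasStrictFDerivAt_norm_sq x).hasFDerivAt.const_mul τ).congr_fderiv ?_
    ext y
    simp
    ring
  exact (HasFDerivAt.fun_sum fun i _ => h1 i).add h2

lemma D2_pot (L : ι → E k →L[ℝ] ℝ) (b : ι → ℝ) (c s τ : ℝ) (x v w : E k) :
    D2 (pot L b c s τ) x v w = (∑ i, c * s ^ 2 * (Real.exp (s * (L i x - b i))
      / (1 + Real.exp (s * (L i x - b i))) ^ 2) * L i v * L i w) + 2 * τ * inner ℝ v w := by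
  rw [D2, show fderiv ℝ (pot L b c s τ) = fun y =>
    (∑ i, (c * s * softPos' (s * (L i y - b i))) • L i) + (2 * τ) • innerSL ℝ y from
    funext fun y => (hasFDerivAt_pot L b c s τ y).fderiv]
  have h1 : ∀ i, HasFDerivAt (fun y => (c * s * softPos' (s * (L i y - b i))) • L i)
      ((((c * s ^ 2) * (Real.exp (s * (L i x - b i))
        / (1 + Real.exp (s * (L i x - b i))) ^ 2)) • L i).smulRight (L i)) x := fun i => by
    have h := (((hasDerivAt_softPos' (s * (L i x - b i))).comp_hasFDerivAt x
      (((L i).hasFDerivAt.sub_const (b i)).const_mul s)).const_mul (c * s)).smul_const (L i)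
    refine h.congr_fderiv ?_
    ext y z
    simp only [smul_apply, ContinuousLinearMap.smulRight_apply, smul_eq_mul]
    ring
  have h : HasFDerivAt
      (fun y => (∑ i, (c * s * softPos' (s * (L i y - b i))) • L i) + (2 * τ) • innerSL ℝ y)
      _ x := (HasFDerivAt.fun_sum (u := Finset.univ) fun i _ => h1 i).fun_add
    ((innerSL ℝ (E := E k)).hasFDerivAt.const_smul (2 * τ) (x := x))
  rw [h.fderiv]
  simp
  exact Or.inl rfl

lemma pot_pinched (L : ι → E k →L[ℝ] ℝ) (b : ι → ℝ) {c s τ : ℝ} (hc : 0 ≤ c) (hτ : 0 < τ) :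
    Pinched (pot L b c s τ) (2 * τ) ((∑ i, c * s ^ 2 * ‖L i‖ ^ 2) + 2 * τ) := by
  refine ⟨contDiff_pot L b c s τ, by positivity, fun x w => ?_, fun x w => ?_⟩
  · rw [D2_pot, real_inner_self_eq_norm_sq]
    refine le_add_of_nonneg_left (Finset.sum_nonneg fun i _ => ?_)
    rw [mul_assoc]
    exact mul_nonneg (by positivity) (mul_self_nonneg _)
  · rw [D2_pot, real_inner_self_eq_norm_sq, add_mul, Finset.sum_mul]
    refine add_le_add (Finset.sum_le_sum fun i _ => ?_) le_rfl
    have h1 : L i w * L i w ≤ ‖L i‖ ^ 2 * ‖w‖ ^ 2 := by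
      rw [← mul_pow, ← sq]
      exact sq_le_sq' (neg_le_of_abs_le ((L i).le_opNorm w)) (le_of_abs_le ((L i).le_opNorm w))
    calc c * s ^ 2 * _ * L i w * L i w = c * s ^ 2 * (_ * (L i w * L i w)) := by ring
      _ ≤ c * s ^ 2 * (1 * (‖L i‖ ^ 2 * ‖w‖ ^ 2)) :=
          mul_le_mul_of_nonneg_left (mul_le_mul (softPos''_le _) h1 (mul_self_nonneg _) zero_le_one)
            (by positivity)
      _ = _ := by ring

end potential

/-- The covariance matrix of a body is positive definite. -/
lemma det_covMat_pos {K : Set (Fin k → ℝ)} (hc : IsCompact K) (hi : (interior K).Nonempty)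
    (hv : 0 < volume.real K) : 0 < (covMat K).det := by
  refine (Matrix.PosDef.of_dotProduct_mulVec_pos ?_ fun v hv0 => ?_).det_pos
  · ext i j
    simp [covMat, mul_comm]
  set f : (Fin k → ℝ) → ℝ := fun x => ∑ i, v i * (x i - centroid K i) with hf
  have hint : ∀ g : (Fin k → ℝ) → ℝ, Continuous g → IntegrableOn g K := fun g hg =>
    hg.continuousOn.integrableOn_compact hc
  have heq : star v ⬝ᵥ covMat K *ᵥ v = (∫ x in K, f x ^ 2) / volume.real K := by
    have hsq : ∀ x, f x ^ 2 = ∑ i, ∑ j,
        (v i * v j) * ((x i - centroid K i) * (x j - centroid K j)) := fun x => by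
      rw [hf, sq, Finset.sum_mul_sum]
      exact Finset.sum_congr rfl fun i _ => Finset.sum_congr rfl fun j _ => by ring
    simp_rw [hsq]
    rw [integral_finsetSum _ fun i _ => (hint _ (by fun_prop)), Finset.sum_div]
    refine Finset.sum_congr rfl fun i _ => ?_
    rw [integral_finsetSum _ fun j _ => (hint _ (by fun_prop)), Finset.sum_div]
    simp only [Matrix.mulVec, dotProduct, covMat, Matrix.of_apply, Pi.star_apply, star_trivial,
      Finset.mul_sum]
    refine Finset.sum_congr rfl fun j _ => ?_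
    rw [integral_const_mul]
    ring
  rw [heq]
  refine div_pos ?_ hv
  rw [setIntegral_pos_iff_support_of_nonneg_ae (Eventually.of_forall fun x => sq_nonneg _)
    (hint _ (by fun_prop))]
  obtain ⟨i, hvi⟩ := Function.ne_iff.1 hv0
  obtain ⟨x, hx⟩ := hi
  have ho : IsOpen (interior K ∩ {x | f x ≠ 0}) :=
    isOpen_interior.inter (isOpen_ne_fun (by fun_prop) continuous_const)
  have hne : (interior K ∩ {x | f x ≠ 0}).Nonempty := by
    by_contra hcon
    have hz : ∀ y ∈ interior K, f y = 0 := fun y hy => by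
      by_contra h
      exact hcon ⟨y, hy, h⟩
    have ht : Tendsto (fun t : ℝ => x + t • v) (𝓝[≠] 0) (𝓝 x) := by
      refine (Continuous.tendsto' (by fun_prop) 0 x (by simp)).mono_left nhdsWithin_le_nhds
    obtain ⟨t, ht1, ht2⟩ := ((ht.eventually_mem (isOpen_interior.mem_nhds hx)).and
      eventually_mem_nhdsWithin).exists
    have h1 := hz _ ht1
    have h2 := hz _ hx
    simp only [hf, Pi.add_apply, Pi.smul_apply, smul_eq_mul] at h1 h2
    have h3 : t * ∑ j, v j * v j = 0 := by
      rw [Finset.mul_sum]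
      calc ∑ j, t * (v j * v j)
          = ∑ j, (v j * (x j + t * v j - centroid K j) - v j * (x j - centroid K j)) :=
            Finset.sum_congr rfl fun j _ => by ring
        _ = 0 := by rw [Finset.sum_sub_distrib, h1, h2, sub_zero]
    have h4 := (mul_eq_zero.1 h3).resolve_left ht2
    exact hvi (mul_self_eq_zero.1
      ((Finset.sum_eq_zero_iff_of_nonneg fun j _ => mul_self_nonneg (v j)).1 h4 i
        (Finset.mem_univ i)))
  refine (ho.measure_pos volume hne).trans_le (measure_mono ?_)
  rintro y ⟨h1, h2⟩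
  exact ⟨by simpa [Function.mem_support] using h2, interior_subset h1⟩

lemma volume_real_pos {K : Set (Fin k → ℝ)} (hc : IsCompact K) (hi : (interior K).Nonempty) :
    0 < volume.real K :=
  ENNReal.toReal_pos ((isOpen_interior.measure_pos volume hi).trans_le
    (measure_mono interior_subset)).ne' hc.measure_lt_top.ne

/-- A set in coordinate space, read in Euclidean space. -/
def euc (K : Set (Fin k → ℝ)) : Set (E k) := WithLp.ofLp ⁻¹' K

lemma setIntegral_euc (K : Set (Fin k → ℝ)) (g : (Fin k → ℝ) → ℝ) :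
    ∫ x in euc K, g (WithLp.ofLp x) = ∫ y in K, g y :=
  (PiLp.volume_preserving_ofLp (Fin k)).setIntegral_preimage_emb
    (MeasurableEquiv.toLp 2 (Fin k → ℝ)).symm.measurableEmbedding g K

lemma isCompact_euc {K : Set (Fin k → ℝ)} (hc : IsCompact K) : IsCompact (euc K) :=
  (EuclideanSpace.equiv (Fin k) ℝ).toHomeomorph.isCompact_preimage.2 hc

lemma convex_euc {K : Set (Fin k → ℝ)} (hK : Convex ℝ K) : Convex ℝ (euc K) :=
  hK.linear_preimage (EuclideanSpace.equiv (Fin k) ℝ).toLinearEquiv.toLinearMap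

lemma norm_le_sum_abs (x : E k) : ‖x‖ ≤ ∑ j, |x j| := by
  rw [EuclideanSpace.norm_eq, Real.sqrt_le_left (Finset.sum_nonneg fun j _ => abs_nonneg _)]
  simpa [sq_abs] using Finset.sum_sq_le_sq_sum_of_nonneg (s := Finset.univ)
    fun j _ => abs_nonneg (x j)

/-- The dominating function. -/
lemma integrable_dom (D : ℝ) :
    Integrable fun x : E k => D * (1 + ‖x‖) ^ 2 * Real.exp (-(‖x‖ / 2)) := by
  set C := 2 ^ (k + 3) * ((k + 3).factorial : ℝ) * Real.exp (1 / 2) with hC
  have hi : Integrable fun x : E k => (1 + ‖x‖) ^ (-((k : ℝ) + 1)) :=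
    integrable_one_add_norm (by simp)
  refine (hi.const_mul (|D| * C)).mono' (by fun_prop : Continuous _).aestronglyMeasurable
    (Eventually.of_forall fun x => ?_)
  set u := 1 + ‖x‖ with hu
  have hu0 : 0 < u := by positivity
  have h1 := Real.pow_div_factorial_le_exp (x := u / 2) (by positivity) (k + 3)
  have h2 : Real.exp (-(‖x‖ / 2)) = Real.exp (1 / 2) * (Real.exp (u / 2))⁻¹ := by
    rw [← Real.exp_neg, ← Real.exp_add]
    congr 1
    rw [hu]
    ring
  have h3 : (Real.exp (u / 2))⁻¹ ≤ 2 ^ (k + 3) * ((k + 3).factorial : ℝ) / u ^ (k + 3) := by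
    refine (inv_anti₀ (by positivity) h1).trans (le_of_eq ?_)
    rw [div_pow]
    field_simp
  rw [Real.norm_eq_abs, abs_mul, abs_mul, abs_of_nonneg (sq_nonneg u),
    abs_of_nonneg (Real.exp_pos _).le, Real.rpow_neg hu0.le,
    show (k : ℝ) + 1 = ((k + 1 : ℕ) : ℝ) by push_cast; ring, Real.rpow_natCast, h2]
  calc |D| * u ^ 2 * (Real.exp (1 / 2) * (Real.exp (u / 2))⁻¹)
      ≤ |D| * u ^ 2 * (Real.exp (1 / 2) * (2 ^ (k + 3) * ((k + 3).factorial : ℝ) / u ^ (k + 3))) := by
        gcongr
    _ = |D| * C * (u ^ (k + 1))⁻¹ := by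
        rw [hC, show u ^ (k + 3) = u ^ (k + 1) * u ^ 2 from pow_add u (k + 1) 2]
        field_simp

theorem body_stmt : BodyStmt := by
  intro k _ K hc hK hi
  have hv := volume_real_pos hc hi
  refine ⟨det_covMat_pos hc hi hv, hv, ?_⟩
  have hKc := isCompact_euc hc
  obtain ⟨M, hM⟩ := hKc.isBounded.exists_norm_le
  obtain ⟨y₀, hy₀'⟩ := hi
  have hKne : (euc K).Nonempty := ⟨WithLp.toLp 2 y₀, by simpa [euc] using interior_subset hy₀'⟩
  set a : ℕ → E k := TopologicalSpace.denseSeq (E k) with ha
  set h : E k → ℝ := fun v => sSup ((fun y => inner ℝ v y) '' euc K) with hh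
  have hle : ∀ v, ∀ y ∈ euc K, inner ℝ v y ≤ h v := fun v y hy =>
    le_csSup (hKc.bddAbove_image (by fun_prop : Continuous fun y => inner ℝ v y).continuousOn)
      ⟨y, hy, rfl⟩
  let L : (n : ℕ) → Fin (n + 1) ⊕ (Fin k ⊕ Fin k) → E k →L[ℝ] ℝ := fun _ =>
    Sum.elim (fun i => innerSL ℝ (a i))
      (Sum.elim (fun j => EuclideanSpace.proj j) (fun j => -EuclideanSpace.proj j))
  let b : (n : ℕ) → Fin (n + 1) ⊕ (Fin k ⊕ Fin k) → ℝ := fun _ =>
    Sum.elim (fun i => h (a i)) (fun _ => M)
  let N : ℕ → ℝ := fun n => (n : ℝ) + 1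
  have hN1 : ∀ n, 1 ≤ N n := fun n => by simp [N]
  have hN : ∀ n, 0 < N n := fun n => zero_lt_one.trans_le (hN1 n)
  let W : ℕ → E k → ℝ := fun n => pot (L n) (b n) (1 / N n ^ 2) (N n ^ 3) (1 / N n)
  -- lower bounds
  have hterm : ∀ n i x, max 0 (L n i x - b n i) ≤
      1 / N n ^ 2 * softPos (N n ^ 3 * (L n i x - b n i)) := fun n i x => by
    refine max_le (mul_nonneg (by positivity) (softPos_nonneg _)) ?_
    rcases le_total (L n i x - b n i) 0 with h0 | h0
    · exact h0.trans (mul_nonneg (by positivity) (softPos_nonneg _))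
    · refine le_trans ?_ (mul_le_mul_of_nonneg_left (le_softPos _) (by positivity))
      rw [show 1 / N n ^ 2 * (N n ^ 3 * (L n i x - b n i)) = N n * (L n i x - b n i) by
        field_simp [(hN n).ne']]
      exact le_mul_of_one_le_left h0 (hN1 n)
  have hWnn : ∀ n x, 0 ≤ W n x := fun n x =>
    add_nonneg (Finset.sum_nonneg fun i _ => (le_max_left _ _).trans (hterm n i x))
      (mul_nonneg (one_div_pos.2 (hN n)).le (sq_nonneg _))
  have hlow : ∀ n x, ‖x‖ - (k : ℝ) * M ≤ W n x := fun n x => by
    have h1 : ∀ j, |x j| - M ≤ max 0 (L n (Sum.inr (Sum.inl j)) x - b n (Sum.inr (Sum.inl j)))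
        + max 0 (L n (Sum.inr (Sum.inr j)) x - b n (Sum.inr (Sum.inr j))) := fun j => by
      simp only [L, b, Sum.elim_inr, Sum.elim_inl, neg_apply, PiLp.proj_apply]
      rcases abs_choice (x j) with h0 | h0 <;> rw [h0] <;>
        linarith [le_max_left 0 (x j - M), le_max_right 0 (x j - M),
          le_max_left 0 (-x j - M), le_max_right 0 (-x j - M)]
    calc ‖x‖ - (k : ℝ) * M ≤ ∑ j : Fin k, (|x j| - M) := by
          simp [Finset.sum_sub_distrib]
          linarith [norm_le_sum_abs x]
      _ ≤ ∑ j, _ := Finset.sum_le_sum fun j _ => h1 j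
      _ ≤ W n x := by
          simp only [W, pot, Fintype.sum_sum_type]
          rw [Finset.sum_add_distrib]
          refine le_add_of_le_of_nonneg (le_add_of_nonneg_of_le
            (Finset.sum_nonneg fun i _ => (le_max_left _ _).trans (hterm n _ x))
            (add_le_add (Finset.sum_le_sum fun j _ => hterm n _ x)
              (Finset.sum_le_sum fun j _ => hterm n _ x))) ?_
          exact mul_nonneg (one_div_pos.2 (hN n)).le (sq_nonneg _)
  have hexp : ∀ n x, Real.exp (-(W n x / 2)) ≤
      Real.exp ((k : ℝ) * M / 2) * Real.exp (-(‖x‖ / 2)) := fun n x => by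
    rw [← Real.exp_add]
    exact Real.exp_le_exp.2 (by linarith [hlow n x])
  have hexp1 : ∀ n x, Real.exp (-W n x) ≤
      Real.exp ((k : ℝ) * M / 2) * Real.exp (-(‖x‖ / 2)) := fun n x =>
    (Real.exp_le_exp.2 (by linarith [hWnn n x])).trans (hexp n x)
  -- pointwise limits
  have hin : ∀ x ∈ euc K, Tendsto (fun n => W n x) atTop (𝓝 0) := fun x hx => by
    have hneg : ∀ n i, L n i x - b n i ≤ 0 := fun n i => by
      have hj : ∀ j, |x j| ≤ M := fun j => (PiLp.norm_apply_le x j).trans (hM x hx)
      rcases i with i | j | j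
      · simpa [L, b] using hle (a i) x hx
      · simpa [L, b] using (le_abs_self (x j)).trans (hj j)
      · simp only [L, b, Sum.elim_inr, neg_apply, PiLp.proj_apply, sub_nonpos]
        exact (neg_le_abs (x j)).trans (hj j)
    have hup : ∀ n, W n x ≤ ((1 + 2 * (k : ℝ)) * Real.log 2 + ‖x‖ ^ 2) * (1 / N n) := fun n => by
      have h1 : ∀ i, 1 / N n ^ 2 * softPos (N n ^ 3 * (L n i x - b n i)) ≤
          1 / N n ^ 2 * Real.log 2 := fun i =>
        mul_le_mul_of_nonneg_left (softPos_le_log_two
          (mul_nonpos_of_nonneg_of_nonpos (by positivity) (hneg n i))) (by positivity)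
      refine (add_le_add (Finset.sum_le_sum fun i _ => h1 i) le_rfl).trans ?_
      simp only [Finset.sum_const, Finset.card_univ, Fintype.card_sum, Fintype.card_fin,
        nsmul_eq_mul]
      push_cast
      have h2 : ((n : ℝ) + 1 + ((k : ℝ) + k)) * (1 / N n ^ 2) ≤ (1 + 2 * (k : ℝ)) * (1 / N n) := by
        rw [mul_one_div, mul_one_div, div_le_div_iff₀ (pow_pos (hN n) 2) (hN n)]
        have : 0 ≤ (k : ℝ) * ((N n - 1) * N n) :=
          mul_nonneg (Nat.cast_nonneg k) (mul_nonneg (by linarith [hN1 n]) (hN n).le)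
        simp only [N] at this ⊢
        nlinarith
      nlinarith [mul_le_mul_of_nonneg_right h2 (Real.log_nonneg (by norm_num : (1 : ℝ) ≤ 2))]
    refine squeeze_zero (fun n => hWnn n x) hup ?_
    have h0 : Tendsto (fun n : ℕ => 1 / ((n : ℝ) + 1)) atTop (𝓝 0) :=
      tendsto_one_div_add_atTop_nhds_zero_nat
    have h1 := h0.const_mul ((1 + 2 * (k : ℝ)) * Real.log 2 + ‖x‖ ^ 2)
    rw [mul_zero] at h1
    exact h1
  have hout : ∀ x ∉ euc K, Tendsto (fun n => W n x) atTop atTop := fun x hx => by
    obtain ⟨f, u, hfu, hu⟩ := geometric_hahn_banach_closed_point (convex_euc hK) hKc.isClosed hx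
    set v := (InnerProductSpace.toDual ℝ (E k)).symm f with hvdef
    have hfv : ∀ y, f y = inner ℝ v y := fun y => by simp [hvdef]
    set δ := (f x - u) / 4 with hδdef
    have hδ : 0 < δ := by rw [hδdef]; linarith
    set ε := δ / (|M| + ‖x‖ + 1) with hεdef
    have hε : 0 < ε := by positivity
    obtain ⟨i, hi'⟩ := Metric.mem_closure_range_iff.1
      (TopologicalSpace.denseRange_denseSeq (E k) v) ε hε
    rw [dist_eq_norm, ← ha] at hi'
    have hb : ∀ y : E k, ‖y‖ ≤ |M| + ‖x‖ + 1 → |inner ℝ (a i) y - f y| ≤ δ := fun y hy => by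
      rw [hfv, ← inner_sub_left]
      refine (abs_real_inner_le_norm _ _).trans ?_
      rw [norm_sub_rev]
      calc ‖v - a i‖ * ‖y‖ ≤ ε * (|M| + ‖x‖ + 1) :=
            mul_le_mul hi'.le hy (norm_nonneg _) hε.le
        _ = δ := by rw [hεdef]; field_simp
    have hhi : h (a i) ≤ u + δ := csSup_le (hKne.image _) fun z ⟨y, hy, hz⟩ => by
      rw [← hz]
      have h1 := (hM y hy).trans (le_abs_self M)
      have := abs_le.1 (hb y (by linarith [norm_nonneg x]))
      linarith [hfu y hy]
    have hgap : δ ≤ inner ℝ (a i) x - h (a i) := by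
      have := abs_le.1 (hb x (by linarith [abs_nonneg M]))
      linarith
    have hbig : ∀ᶠ n : ℕ in atTop, δ * (n : ℝ) ≤ W n x := by
      filter_upwards [eventually_ge_atTop i] with n hn
      set i' : Fin (n + 1) ⊕ (Fin k ⊕ Fin k) := Sum.inl ⟨i, Nat.lt_succ_of_le hn⟩
      have h1 : δ * (n : ℝ) ≤ 1 / N n ^ 2 * softPos (N n ^ 3 * (L n i' x - b n i')) := by
        refine le_trans ?_ (mul_le_mul_of_nonneg_left (le_softPos _) (by positivity))
        rw [show 1 / N n ^ 2 * (N n ^ 3 * (L n i' x - b n i')) = N n * (L n i' x - b n i') by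
          field_simp [(hN n).ne']]
        simp only [i', L, b, Sum.elim_inl, innerSL_apply_apply, N]
        nlinarith [mul_le_mul_of_nonneg_left hgap (add_nonneg (Nat.cast_nonneg n) zero_le_one)]
      refine h1.trans ?_
      refine (Finset.single_le_sum (f := fun j => 1 / N n ^ 2 * softPos (N n ^ 3 * (L n j x - b n j)))
        (fun j _ => (le_max_left _ _).trans (hterm n j x)) (Finset.mem_univ i')).trans ?_
      exact le_add_of_nonneg_right (mul_nonneg (one_div_pos.2 (hN n)).le (sq_nonneg _))
    exact tendsto_atTop_mono' atTop hbig (tendsto_natCast_atTop_atTop.const_mul_atTop hδ)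
  have hWc : ∀ n, Continuous (W n) := fun n => (contDiff_pot _ _ _ _ _).continuous
  -- dominated convergence
  have hdom : ∀ (g : ℕ → E k → ℝ) (g₀ : E k → ℝ) (C : ℝ), (∀ n, Continuous (g n)) →
      (∀ x, Tendsto (fun n => g n x) atTop (𝓝 (g₀ x))) →
      (∀ᶠ n in atTop, ∀ x, ‖g n x‖ ≤ C * (1 + ‖x‖) ^ 2) →
      Tendsto (fun n => ∫ x, Real.exp (-W n x) * g n x) atTop (𝓝 (∫ x in euc K, g₀ x)) := by
    intro g g₀ C hgc hg hb
    rw [← integral_indicator hKc.measurableSet]
    refine tendsto_integral_filter_of_dominated_convergence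
      (fun x => C * Real.exp ((k : ℝ) * M / 2) * (1 + ‖x‖) ^ 2 * Real.exp (-(‖x‖ / 2)))
      (Eventually.of_forall fun n =>
        ((Real.continuous_exp.comp (hWc n).neg).mul (hgc n)).aestronglyMeasurable)
      ?_ (integrable_dom _) (Eventually.of_forall fun x => ?_)
    · filter_upwards [hb] with n hn
      refine Eventually.of_forall fun x => ?_
      rw [norm_mul, Real.norm_of_nonneg (Real.exp_pos _).le]
      refine (mul_le_mul (hexp1 n x) (hn x) (norm_nonneg _) (by positivity)).trans_eq ?_
      ring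
    · by_cases hx : x ∈ euc K
      · rw [Set.indicator_of_mem hx]
        simpa using ((Real.continuous_exp.tendsto _).comp (hin x hx).neg).mul (hg x)
      · rw [Set.indicator_of_notMem hx]
        simpa using (Real.tendsto_exp_atBot.comp
          (tendsto_neg_atTop_atBot.comp (hout x hx))).mul (hg x)
  have hZ : Tendsto (fun n => Zc (W n)) atTop (𝓝 (volume.real K)) := by
    have h1 := hdom (fun _ _ => 1) (fun _ => 1) 1 (fun _ => continuous_const)
      (fun _ => tendsto_const_nhds) (Eventually.of_forall fun n x => by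
        simp only [norm_one, one_mul]
        exact one_le_pow₀ (by linarith [norm_nonneg x]))
    have h2 : ∫ _x in euc K, (1 : ℝ) = volume.real K := by
      have := setIntegral_euc K fun _ => 1
      simpa using this
    rw [h2] at h1
    simpa [Zc] using h1
  have hWW : Tendsto (fun n => ∫ x, Real.exp (-W n x) * W n x) atTop (𝓝 0) := by
    have hmul : ∀ n x, Real.exp (-W n x) * W n x ≤ 2 * Real.exp (-(W n x / 2)) := fun n x => by
      have h1 : W n x ≤ 2 * Real.exp (W n x / 2) := by linarith [Real.add_one_le_exp (W n x / 2)]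
      refine (mul_le_mul_of_nonneg_left h1 (Real.exp_pos _).le).trans (le_of_eq ?_)
      rw [mul_left_comm, ← Real.exp_add]
      ring_nf
    rw [← integral_zero (E k) ℝ (μ := volume)]
    refine tendsto_integral_filter_of_dominated_convergence
      (fun x => 2 * Real.exp ((k : ℝ) * M / 2) * (1 + ‖x‖) ^ 2 * Real.exp (-(‖x‖ / 2)))
      (Eventually.of_forall fun n =>
        ((Real.continuous_exp.comp (hWc n).neg).mul (hWc n)).aestronglyMeasurable)
      (Eventually.of_forall fun n => Eventually.of_forall fun x => ?_) (integrable_dom _)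
      (Eventually.of_forall fun x => ?_)
    · rw [Real.norm_of_nonneg (mul_nonneg (Real.exp_pos _).le (hWnn n x))]
      have h1 : (1 : ℝ) ≤ (1 + ‖x‖) ^ 2 := one_le_pow₀ (by linarith [norm_nonneg x])
      calc Real.exp (-W n x) * W n x ≤ 2 * (Real.exp ((k : ℝ) * M / 2) * Real.exp (-(‖x‖ / 2))) :=
            (hmul n x).trans (mul_le_mul_of_nonneg_left (hexp n x) zero_le_two)
        _ = 2 * Real.exp ((k : ℝ) * M / 2) * 1 * Real.exp (-(‖x‖ / 2)) := by ring
        _ ≤ _ := by gcongr
    · by_cases hx : x ∈ euc K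
      · simpa using ((Real.continuous_exp.tendsto _).comp (hin x hx).neg).mul (hin x hx)
      · have h2 : Tendsto (fun n => 2 * Real.exp (-(W n x / 2))) atTop (𝓝 0) := by
          simpa using (Real.tendsto_exp_atBot.comp (tendsto_neg_atTop_atBot.comp
            ((hout x hx).atTop_div_const two_pos))).const_mul (2 : ℝ)
        exact squeeze_zero (fun n => mul_nonneg (Real.exp_pos _).le (hWnn n x))
          (fun n => hmul n x) h2
  refine ⟨W, fun n => 2 * (1 / N n), fun n => (∑ i, 1 / N n ^ 2 * (N n ^ 3) ^ 2 * ‖L n i‖ ^ 2)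
    + 2 * (1 / N n), fun n => pot_pinched _ _ (by positivity) (one_div_pos.2 (hN n)), ?_, ?_⟩
  · have := ((hZ.inv₀ hv.ne').mul hWW).add (((Real.continuousAt_log hv.ne').tendsto).comp hZ)
    simpa [ent, ex] using this
  · have hmu : ∀ i, Tendsto (fun n => mu (W n) i) atTop (𝓝 (centroid K i)) := fun i => by
      have h1 := hdom (fun _ x => x i) (fun x => x i) 1 (fun _ => by fun_prop)
        (fun _ => tendsto_const_nhds) (Eventually.of_forall fun n x => by
          have := PiLp.norm_apply_le x i
          nlinarith [norm_nonneg x, norm_nonneg (x i)])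
      have h2 : ∫ x in euc K, x i = ∫ y in K, y i := setIntegral_euc K fun y => y i
      rw [h2] at h1
      have := (hZ.inv₀ hv.ne').mul h1
      simpa [mu, ex, centroid, div_eq_inv_mul] using this
    refine ((continuous_id.matrix_det).tendsto (covMat K)).comp ?_
    refine tendsto_pi_nhds.2 fun i => tendsto_pi_nhds.2 fun j => ?_
    set B := |centroid K i| + |centroid K j| + 1 with hB
    have hb : ∀ᶠ n in atTop, |mu (W n) i| ≤ B ∧ |mu (W n) j| ≤ B := by
      filter_upwards [(hmu i).abs.eventually (gt_mem_nhds (lt_add_one _)),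
        (hmu j).abs.eventually (gt_mem_nhds (lt_add_one _))] with n h1 h2
      constructor <;> rw [hB] <;> linarith [abs_nonneg (centroid K i), abs_nonneg (centroid K j)]
    have h1 := hdom (fun n x => (x i - mu (W n) i) * (x j - mu (W n) j))
      (fun x => (x i - centroid K i) * (x j - centroid K j)) ((1 + B) ^ 2) (fun _ => by fun_prop)
      (fun x => ((hmu i).const_sub _).mul ((hmu j).const_sub _)) (by
        filter_upwards [hb] with n hn x
        have hx : ∀ l c, |c| ≤ B → |x l - c| ≤ (1 + B) * (1 + ‖x‖) := fun l c hc => by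
          refine (abs_sub _ _).trans ?_
          have h3 : |x l| ≤ ‖x‖ := PiLp.norm_apply_le x l
          nlinarith [norm_nonneg x, (abs_nonneg c).trans hc]
        rw [Real.norm_eq_abs, abs_mul]
        refine (mul_le_mul (hx i _ hn.1) (hx j _ hn.2) (abs_nonneg _)
          (le_trans (abs_nonneg _) (hx i _ hn.1))).trans_eq ?_
        ring)
    have h2 : ∫ x in euc K, (x i - centroid K i) * (x j - centroid K j)
        = ∫ y in K, (y i - centroid K i) * (y j - centroid K j) :=
      setIntegral_euc K fun y => (y i - centroid K i) * (y j - centroid K j)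
    rw [h2] at h1
    have := (hZ.inv₀ hv.ne').mul h1
    simpa [cov, ex, covMat, div_eq_inv_mul] using this

end Vale.P254.Loc
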