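import Vale.Agent.P254.Simplex

/-!
# A dimension-free lower bound for the isotropic constant of a simplex
-/

namespace Vale.P254.Loc

/-- The ratio of a simplex, whose root is its isotropic constant. -/
noncomputable def simplexRatio (n : ℕ) : ℝ :=
  (n.factorial : ℝ) ^ 2 / (((n + 1) * (n + 2) : ℝ) ^ n * (n + 1))

lemma simplexRatio_pos (n : ℕ) : 0 < simplexRatio n := by
  unfold simplexRatio; positivity

lemma pow_ratio_le (n : ℕ) (hn : 3 ≤ n) :
    ((n : ℝ) + 3) ^ (n + 1) * ((n : ℝ) + 2) ^ 2 ≤ 12 * ((n : ℝ) + 1) ^ (n + 3) := by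
  set t : ℝ := (n : ℝ) + 1 with ht
  have ht0 : 0 < t := by positivity
  have h1 : ((t + 2) / t) ^ (n + 1) ≤ Real.exp 2 := by
    have h := pow_le_pow_left₀ (by positivity) (Real.add_one_le_exp (2 / t)) (n + 1)
    rw [← Real.exp_nat_mul, show ((n + 1 : ℕ) : ℝ) * (2 / t) = 2 by push_cast; rw [← ht]; field_simp]
      at h
    rwa [show (t + 2) / t = 2 / t + 1 by field_simp; ring]
  have h2 : Real.exp 2 ≤ 15 / 2 := by
    rw [show (2 : ℝ) = 1 + 1 by norm_num, Real.exp_add]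
    nlinarith [Real.exp_one_lt_d9, Real.exp_pos 1]
  have h3 : (t + 1) ^ 2 ≤ 8 / 5 * t ^ 2 := by
    have : (4 : ℝ) ≤ t := by
      rw [ht]
      have : (3 : ℝ) ≤ n := by exact_mod_cast hn
      linarith
    nlinarith
  rw [div_pow, div_le_iff₀ (by positivity)] at h1
  calc ((n : ℝ) + 3) ^ (n + 1) * ((n : ℝ) + 2) ^ 2 = (t + 2) ^ (n + 1) * (t + 1) ^ 2 := by
        rw [ht]; ring_nf
    _ ≤ (15 / 2 * t ^ (n + 1)) * (8 / 5 * t ^ 2) := by
        refine mul_le_mul (h1.trans ?_) h3 (by positivity) (by positivity)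
        exact mul_le_mul_of_nonneg_right h2 (by positivity)
    _ = _ := by ring

lemma simplexRatio_succ (n : ℕ) (hn : 1 ≤ n) :
    simplexRatio n / 12 ≤ simplexRatio (n + 1) := by
  have hkey : ((n : ℝ) + 3) ^ (n + 1) * ((n : ℝ) + 2) ^ 2 ≤ 12 * ((n : ℝ) + 1) ^ (n + 3) := by
    rcases Nat.lt_or_ge n 3 with h | h
    · interval_cases n <;> norm_num
    · exact pow_ratio_le n h
  unfold simplexRatio
  rw [div_div, div_le_div_iff₀ (by positivity) (by positivity), Nat.factorial_succ]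
  push_cast
  have hf : (0 : ℝ) ≤ (n.factorial : ℝ) ^ 2 * ((n : ℝ) + 2) ^ n := by positivity
  have h := mul_le_mul_of_nonneg_left hkey hf
  calc (n.factorial : ℝ) ^ 2 * ((((n : ℝ) + 1 + 1) * ((n : ℝ) + 1 + 2)) ^ (n + 1) * ((n : ℝ) + 1 + 1))
      = (n.factorial : ℝ) ^ 2 * ((n : ℝ) + 2) ^ n
          * (((n : ℝ) + 3) ^ (n + 1) * ((n : ℝ) + 2) ^ 2) := by simp only [mul_pow]; ring
    _ ≤ _ := h
    _ = _ := by simp only [mul_pow]; ring

lemma simplexRatio_ge : ∀ n : ℕ, 1 ≤ n → (1 / 12 : ℝ) ^ n ≤ simplexRatio n := by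
  intro n hn
  induction n, hn using Nat.le_induction with
  | base => norm_num [simplexRatio]
  | succ m hm ih =>
    refine le_trans ?_ (simplexRatio_succ m hm)
    rw [pow_succ]
    linarith

theorem simplex_ge {n : ℕ} (hn : 1 ≤ n) (p : Fin (n + 1) → Fin n → ℝ)
    (hp : AffineIndependent ℝ p) :
    Real.sqrt (1 / 12) ≤ isoConst (convexHull ℝ (Set.range p)) := by
  rw [simplex_isoConst p hp, Real.sqrt_eq_rpow]
  have hn0 : (n : ℝ) ≠ 0 := by
    have : n ≠ 0 := by omega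
    exact_mod_cast this
  have h := Real.rpow_le_rpow (by positivity) (simplexRatio_ge n hn)
    (show (0 : ℝ) ≤ 1 / (2 * (n : ℝ)) by positivity)
  refine le_of_eq_of_le ?_ h
  rw [← Real.rpow_natCast, ← Real.rpow_mul (by norm_num)]
  congr 1
  field_simp

theorem le_mul_simplex {n : ℕ} (hn : 1 ≤ n) {L : ℝ}
    (hL : L ≤ Real.sqrt (Real.exp 1 / (2 * Real.pi))) (p : Fin (n + 1) → Fin n → ℝ)
    (hp : AffineIndependent ℝ p) :
    L ≤ Real.sqrt (6 * Real.exp 1 / Real.pi) * isoConst (convexHull ℝ (Set.range p)) := by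
  refine hL.trans (le_trans (le_of_eq ?_)
    (mul_le_mul_of_nonneg_left (simplex_ge hn p hp) (Real.sqrt_nonneg _)))
  rw [← Real.sqrt_mul (by positivity)]
  congr 1
  ring

end Vale.P254.Loc
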