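import Vale.Agent.P254.Skew.Defs
import Vale.Agent.P254.Defs

/-!
# Localisation for the isotropic constant: definitions and interfaces

`h ≥ (k/2) log (2π e) - k + (1/2) log det Cov` for log-concave laws, from the skewness bound.
-/

namespace Vale.P254.Loc

open MeasureTheory Skew

variable {k : ℕ}

/-- The differential entropy of the law proportional to `exp (-W)`. -/
noncomputable def ent (W : E k → ℝ) : ℝ := ex W W + Real.log (Zc W)

/-- The mean. -/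
noncomputable def mu (W : E k → ℝ) (i : Fin k) : ℝ := ex W (fun x => x i)

/-- The covariance matrix. -/
noncomputable def cov (W : E k → ℝ) : Matrix (Fin k) (Fin k) ℝ :=
  Matrix.of fun i j => ex W (fun x => (x i - mu W i) * (x j - mu W j))

/-- The matrix of a bilinear form. -/
noncomputable def formMat (B : E k →L[ℝ] E k →L[ℝ] ℝ) : Matrix (Fin k) (Fin k) ℝ :=
  Matrix.of fun i j => B (EuclideanSpace.single i 1) (EuclideanSpace.single j 1)

/-- The affine invariant functional of a state `(W, B)`. -/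
noncomputable def Phi (η : ℝ) (W : E k → ℝ) (B : E k →L[ℝ] E k →L[ℝ] ℝ) : ℝ :=
  ent W - (1 / 2) * Real.log (cov W).det
    + (1 + η) * ((k : ℝ) - (cov W * formMat B).trace)

/-- The functional at a normalised state. -/
noncomputable def val (η : ℝ) (V : E k → ℝ) (B : E k →L[ℝ] E k →L[ℝ] ℝ) : ℝ :=
  ent V + (1 + η) * ((k : ℝ) - trB B)

/-- The target constant for the Gaussian law. -/
noncomputable def gaussEnt (k : ℕ) : ℝ := (k : ℝ) / 2 * (Real.log (2 * Real.pi) + 1)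

/-- Uniform bounds on normalised states. -/
def EnvelopeStmt : Prop :=
  ∀ k : ℕ, ∃ C R r c : ℝ, 0 < C ∧ 0 < R ∧ 0 < r ∧ 0 < c ∧
    ∀ (V : E k → ℝ) (B : E k →L[ℝ] E k →L[ℝ] ℝ) (ε Λ : ℝ), Hyp V B ε Λ →
      (∀ x, Real.exp (-V x) ≤ C * Real.exp (-(‖x‖ / R))) ∧
      ∀ x, ‖x‖ ≤ r → c ≤ Real.exp (-V x)

/-- Affine normalisation of a state. -/
def NormaliseStmt : Prop :=
  ∀ (k : ℕ) (W : E k → ℝ) (B : E k →L[ℝ] E k →L[ℝ] ℝ) (ε Λ : ℝ), Pinched W ε Λ →
    (∀ v w, B v w = B w v) → (∀ w, 0 ≤ B w w) → (∀ x w, B w w ≤ D2 W x w w) →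
    ∃ (V : E k → ℝ) (B' : E k →L[ℝ] E k →L[ℝ] ℝ) (ε' Λ' : ℝ), Hyp V B' ε' Λ' ∧
      ∀ η, val η V B' = Phi η W B

/-- The potential of the child `± a e_j` of a state. -/
noncomputable def childV (V : E k → ℝ) (j : Fin k) (a : ℝ) : E k → ℝ :=
  fun x => V x - a * x j + a ^ 2 * x j ^ 2 / 2

/-- The form of the child. -/
noncomputable def childB (B : E k →L[ℝ] E k →L[ℝ] ℝ) (j : Fin k) (a : ℝ) :
    E k →L[ℝ] E k →L[ℝ] ℝ :=
  B + a ^ 2 • ((EuclideanSpace.proj j : E k →L[ℝ] ℝ).smulRight (EuclideanSpace.proj j : E k →L[ℝ] ℝ))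

/-- The second order expansion of the functional along the children. -/
def StepStmt : Prop :=
  ∀ k : ℕ, ∃ C a₀ : ℝ, 0 < C ∧ 0 < a₀ ∧
    ∀ (V : E k → ℝ) (B : E k →L[ℝ] E k →L[ℝ] ℝ) (ε Λ η a : ℝ), Hyp V B ε Λ →
      0 ≤ η → η ≤ 1 → 0 < a → a ≤ a₀ →
      ∑ j, (Phi η (childV V j a) (childB B j a) + Phi η (childV V j (-a)) (childB B j (-a))) / 2
        ≤ (k : ℝ) * val η V B
          + a ^ 2 * ((∑ i, ∑ j, ∑ l, third V i j l ^ 2) / 4
              - (1 + η) * ((k : ℝ) - trB B)) + C * a ^ 3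

/-- Nearly terminal states are nearly Gaussian. -/
def TerminalStmt : Prop :=
  ∀ (k : ℕ) (δ : ℝ), 0 < δ → ∃ σ : ℝ, 0 < σ ∧
    ∀ (V : E k → ℝ) (B : E k →L[ℝ] E k →L[ℝ] ℝ) (ε Λ : ℝ), Hyp V B ε Λ →
      0 ≤ (k : ℝ) - trB B → (k : ℝ) - trB B ≤ σ → gaussEnt k - δ ≤ ent V

/-- The entropy inequality for regular potentials. -/
def EntropyStmt : Prop :=
  ∀ (k : ℕ) (W : E k → ℝ) (ε Λ : ℝ), Pinched W ε Λ →
    gaussEnt k - k + (1 / 2) * Real.log (cov W).det ≤ ent W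

/-- Smooth approximation of the uniform law on a convex body. -/
def BodyStmt : Prop :=
  ∀ (k : ℕ), 1 ≤ k → ∀ K : Set (Fin k → ℝ), IsCompact K → Convex ℝ K → (interior K).Nonempty →
    0 < (covMat K).det ∧ 0 < volume.real K ∧
    ∃ (W : ℕ → E k → ℝ) (ε Λ : ℕ → ℝ), (∀ n, Pinched (W n) (ε n) (Λ n)) ∧
      Filter.Tendsto (fun n => ent (W n)) Filter.atTop (nhds (Real.log (volume.real K))) ∧
      Filter.Tendsto (fun n => (cov (W n)).det) Filter.atTop (nhds (covMat K).det)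

end Vale.P254.Loc
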